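import Mathlib

/-!
# P283R, block ZZ: approximation along an unramified map at a closed point
-/

noncomputable section

namespace Vale.Agent.P283R.Zz

namespace A94

variable {A B : Type*} [CommRing A] [CommRing B] [Algebra A B]

/-- in the localisation the ideal downstairs generates the maximal ideal -/
theorem map_eq [Algebra.EssFiniteType A B] [Algebra.FormallyUnramified A B] (n : Ideal B)
    [n.IsPrime] : (n.comap (algebraMap A B)).map (algebraMap A (Localization.AtPrime n)) =
      IsLocalRing.maximalIdeal (Localization.AtPrime n) := by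
  have : n.LiesOver (n.comap (algebraMap A B)) := ⟨rfl⟩
  let _ := Localization.AtPrime.algebraOfLiesOver (n.comap (algebraMap A B)) n
  have h : Algebra.IsUnramifiedAt A n := inferInstance
  exact ((Algebra.isUnramifiedAt_iff_map_eq A (n.comap (algebraMap A B)) n).1 h).2

/-- successive approximation -/
theorem step {S : Type*} [CommRing S] [Algebra A S] (m : Ideal A)
    (h : ∀ x : S, ∃ a : A, x - algebraMap A S a ∈ m.map (algebraMap A S)) (N : ℕ) (x : S) :
    ∃ a : A, x - algebraMap A S a ∈ (m ^ N).map (algebraMap A S) := by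
  induction N with
  | zero => exact ⟨0, by simp [Ideal.map_top]⟩
  | succ N ih =>
    obtain ⟨a, ha⟩ := ih
    have key : ∀ y ∈ (m ^ N).map (algebraMap A S), ∀ c : S,
        ∃ a : A, c * y - algebraMap A S a ∈ (m ^ (N + 1)).map (algebraMap A S) := by
      intro y hy
      induction hy using Submodule.span_induction with
      | zero => exact fun c => ⟨0, by simp⟩
      | mem y hy =>
        obtain ⟨u, hu, rfl⟩ := hy
        intro c
        obtain ⟨a', ha'⟩ := h c
        refine ⟨a' * u, ?_⟩
        have : c * algebraMap A S u - algebraMap A S (a' * u) =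
            algebraMap A S u * (c - algebraMap A S a') := by rw [map_mul]; ring
        rw [this, pow_succ, Ideal.map_mul]
        exact Ideal.mul_mem_mul (Ideal.mem_map_of_mem _ hu) ha'
      | add y z _ _ hy hz =>
        intro c
        obtain ⟨a₁, h₁⟩ := hy c
        obtain ⟨a₂, h₂⟩ := hz c
        refine ⟨a₁ + a₂, ?_⟩
        have : c * (y + z) - algebraMap A S (a₁ + a₂) =
            (c * y - algebraMap A S a₁) + (c * z - algebraMap A S a₂) := by rw [map_add]; ring
        rw [this]
        exact add_mem h₁ h₂
      | smul r y _ hy =>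
        intro c
        obtain ⟨a₁, h₁⟩ := hy (c * r)
        exact ⟨a₁, by rw [smul_eq_mul, ← mul_assoc]; exact h₁⟩
    obtain ⟨a', ha'⟩ := key _ ha 1
    refine ⟨a + a', ?_⟩
    have : x - algebraMap A S (a + a') = 1 * (x - algebraMap A S a) - algebraMap A S a' := by
      rw [map_add]; ring
    rw [this]
    exact ha'

/-- the residue field of a closed point -/
theorem res [Algebra ℂ B] [Algebra.FiniteType ℂ B] (n : Ideal B) [n.IsMaximal] (b : B) :
    ∃ c : ℂ, b - algebraMap ℂ B c ∈ n := by
  let _ := Ideal.Quotient.field n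
  have : Module.Finite ℂ (B ⧸ n) := finite_of_finite_type_of_isJacobsonRing ℂ (B ⧸ n)
  obtain ⟨c, hc⟩ := (IsAlgClosed.algebraMap_bijective_of_isIntegral (k := ℂ) (K := B ⧸ n)).2
    (Ideal.Quotient.mk n b)
  refine ⟨c, Ideal.Quotient.eq.1 ?_⟩
  rw [← hc]
  rfl

end A94

open A94 in
/-- in the local ring at a closed point, every element is a function from downstairs modulo any
power of the maximal ideal downstairs -/
theorem apxl94 {A B : Type*} [CommRing A] [CommRing B] [Algebra A B] [Algebra ℂ A] [Algebra ℂ B]
    [IsScalarTower ℂ A B] [Algebra.FiniteType ℂ B] [Algebra.FormallyUnramified A B] (n : Ideal B)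
    [n.IsMaximal] (N : ℕ) (x : Localization.AtPrime n) :
    ∃ a : A, x - algebraMap A _ a ∈
      ((n.comap (algebraMap A B)) ^ N).map (algebraMap A (Localization.AtPrime n)) := by
  have : Algebra.FiniteType A B := Algebra.FiniteType.of_restrictScalars_finiteType ℂ A B
  refine step _ (fun y => ?_) N x
  rw [map_eq]
  obtain ⟨b, hb⟩ := IsLocalization.AtPrime.equivQuotMaximalIdeal n (Localization.AtPrime n)
    |>.surjective (Ideal.Quotient.mk _ y)
  obtain ⟨b, rfl⟩ := Ideal.Quotient.mk_surjective b
  obtain ⟨c, hc⟩ := res n b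
  refine ⟨algebraMap ℂ A c, ?_⟩
  have h1 : algebraMap B (Localization.AtPrime n) b - y ∈
      IsLocalRing.maximalIdeal (Localization.AtPrime n) := Ideal.Quotient.eq.1 hb
  have h2 : algebraMap B (Localization.AtPrime n) (b - algebraMap ℂ B c) ∈
      IsLocalRing.maximalIdeal (Localization.AtPrime n) := by
    rw [← Localization.AtPrime.map_eq_maximalIdeal]
    exact Ideal.mem_map_of_mem _ hc
  have h3 : algebraMap A (Localization.AtPrime n) (algebraMap ℂ A c) =
      algebraMap B (Localization.AtPrime n) (algebraMap ℂ B c) := by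
    rw [IsScalarTower.algebraMap_apply A B (Localization.AtPrime n),
      ← IsScalarTower.algebraMap_apply ℂ A B]
  rw [map_sub] at h2
  rw [h3]
  have := sub_mem h2 h1
  convert this using 1
  ring

/-- the same without localisation -/
theorem apx94 {A B : Type*} [CommRing A] [CommRing B] [Algebra A B] [Algebra ℂ A] [Algebra ℂ B]
    [IsScalarTower ℂ A B] [Algebra.FiniteType ℂ B] [Algebra.FormallyUnramified A B] (n : Ideal B)
    [n.IsMaximal] (N : ℕ) (b : B) :
    ∃ a : A, ∃ t ∉ n, t * (b - algebraMap A B a) ∈
      ((n.comap (algebraMap A B)) ^ N).map (algebraMap A B) := by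
  obtain ⟨a, ha⟩ := apxl94 (A := A) n N (algebraMap B _ b)
  refine ⟨a, ?_⟩
  rw [IsScalarTower.algebraMap_apply A B (Localization.AtPrime n), ← map_sub,
    IsScalarTower.algebraMap_eq A B (Localization.AtPrime n), ← Ideal.map_map] at ha
  obtain ⟨t, ht⟩ := (IsLocalization.algebraMap_mem_map_algebraMap_iff n.primeCompl
    (Localization.AtPrime n) _ _).1 ha
  exact ⟨t, ht.1, ht.2⟩

end Vale.Agent.P283R.Zz
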