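import Vale.Agent.P283R.Zz.St
import Vale.Agent.P283R.Zz.Apx94

/-!
# P283R, block ZZ: approximation by functions of the base
-/

set_option linter.all false

open Set CategoryTheory AlgebraicGeometry
open Vale.Agent.P289 Vale.Agent.P289.H219 Vale.Agent.P270L Vale.Agent.P283M.Am Vale.Agent.P299.G

noncomputable section

namespace Vale.Agent.P283R.Zz

open Vale.Agent.P287D Vale.Agent.P283M Vale.Agent.P283M.Br Vale.Agent.P283M.Stm.Var

open Pointwise in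
theorem A94.dec {A B : Type} [CommRing A] [CommRing B] (φ : A →+* B) (m : Ideal A) (N : ℕ) {y : B}
    (h : y ∈ (m ^ N).map φ) : ∃ (k : ℕ) (c : Fin k → B) (μ : Fin k → Fin N → A),
      (∀ i j, μ i j ∈ m) ∧ y = ∑ i, c i * φ (∏ j, μ i j) := by
  have e : m ^ N = Ideal.span ((m : Set A) ^ N) := by
    conv_lhs => rw [← Ideal.span_eq m]
    exact Submodule.span_pow _ _
  rw [e, Ideal.map_span] at h
  obtain ⟨k, c, s, rfl⟩ := Submodule.mem_span_set'.1 h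
  have : ∀ i, ∃ μ : Fin N → A, (∀ j, μ j ∈ m) ∧ (s i : B) = φ (∏ j, μ j) := fun i => by
    obtain ⟨x, hx, e1⟩ := (s i).2
    obtain ⟨μ, rfl⟩ := Set.mem_pow.1 hx
    exact ⟨fun j => μ j, fun j => (μ j).2, by rw [← e1, List.prod_ofFn]⟩
  choose μ h1 h2 using this
  exact ⟨k, c, μ, h1, Finset.sum_congr rfl fun i _ => by rw [h2, smul_eq_mul]⟩

theorem apr94 : APX := by
  intro X Z Y W f e g π ι h V w N b hZ hw wV hb
  have := h.et
  have cg := Eb.con X Z Y W f e g π ι h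
  obtain ⟨_, ⟨V', hV', rfl⟩, wV', le'⟩ :=
    W.X.isBasis_affineOpens.exists_subset_of_mem_open wV V.isOpen
  have le : V' ≤ e ⁻¹ᵁ ⊤ := le_top
  obtain ⟨y₀, hy₀⟩ := cg.2.2.1.surj w
  have : Nonempty ↑(g ⁻¹ᵁ V') := ⟨⟨y₀, show g y₀ ∈ V' from hy₀ ▸ wV'⟩⟩
  have : Nonempty ↑(f ⁻¹ᵁ ⊤) := ⟨⟨π y₀, trivial⟩⟩
  have := cg.2.2.2 V'
  obtain ⟨β, rfl⟩ := exists_pl g V' (mem_reg.2 fun y hy => hb y (le' hy))
  let _ : Algebra ℂ Γ(Z.X, ⊤) := (cst Z.str ⊤).toAlgebra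
  let _ : Algebra ℂ Γ(W.X, V') := (cst W.str V').toAlgebra
  let _ : Algebra Γ(Z.X, ⊤) Γ(W.X, V') := (e.appLE ⊤ V' le).hom.toAlgebra
  have : IsScalarTower ℂ Γ(Z.X, ⊤) Γ(W.X, V') := .of_algebraMap_eq fun c => by
    have k : Z.str.appLE ⊤ ⊤ (le_pre _ _) ≫ e.appLE ⊤ V' le = W.str.appLE ⊤ V' (le_pre _ _) := by
      simp only [Scheme.Hom.appLE_comp_appLE, h.ov]
    change H219.cst W.str V' c = _
    unfold H219.cst
    rw [← k]
    rfl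
  have : Algebra.FiniteType ℂ Γ(W.X, V') := cst_finiteType W.str hV'
  have : Algebra.Etale Γ(Z.X, ⊤) Γ(W.X, V') := e.etale_appLE (isAffineOpen_top _) hV' le
  have hm := hV'.primeIdealOf_isMaximal_of_isClosed ⟨_, wV'⟩ hw
  obtain ⟨a, t, ht, k⟩ := apx94 (A := Γ(Z.X, ⊤)) (hV'.primeIdealOf ⟨_, wV'⟩).asIdeal N β
  obtain ⟨n, c, μ, hμ, e1⟩ := A94.dec _ _ N k
  rw [mem_primeIdealOf hV' _ wV', not_not, ← Scheme.mem_basicOpen _ _ _ wV'] at ht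
  have un : ∀ y ∈ g ⁻¹ᵁ W.X.basicOpen t, S.Un y (pl g V' t) := fun y hy =>
    (un_pl (W.X.basicOpen_le _ hy) t).2 hy
  have t0 : pl g V' t ≠ 0 := (un y₀ (show g y₀ ∈ _ from hy₀ ▸ ht)).1
  have rg : ∀ r, Rg (pl f ⊤ r) := fun r x => mem_reg.1 (pl_reg f ⊤ r) x trivial
  refine ⟨pl f ⊤ a, W.X.basicOpen t, ht, rg a, n, fun i => ∏ j, pl f ⊤ (μ i j),
    fun i => pl g V' (c i) * (pl g V' t)⁻¹, fun i => ⟨_, fun j => ⟨rg _, fun a0 x hx hi => ?_⟩, rfl⟩,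
    fun i y hy => reg_mul (mem_reg.1 (pl_reg g V' _) y (W.X.basicOpen_le _ hy)) (un y hy).2.2, ?_⟩
  · have k1 := (un_pl (f := f) (V := ⊤) (x := x) trivial (μ i j)).1 ⟨a0, rg _ x, hi⟩
    have k2 : e.appLE ⊤ V' le (μ i j) ∈ (hV'.primeIdealOf ⟨_, wV'⟩).asIdeal := hμ i j
    rw [mem_primeIdealOf hV' _ wV', ← Scheme.mem_basicOpen _ _ _ wV', Scheme.basicOpen_appLE] at k2
    exact k2 ⟨wV', show e w ∈ _ from (show f x = e w from hx) ▸ k1⟩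
  · have k1 := congrArg (pl g V') e1
    rw [map_mul, map_sub, map_sum] at k1
    rw [← Eb.com h le a, ← mul_right_inj' t0]
    refine k1.trans ?_
    rw [Finset.mul_sum]
    refine Finset.sum_congr rfl fun i _ => ?_
    beta_reduce
    rw [← map_prod, ← Eb.com h le, map_mul, mul_comm (pl g V' t), mul_assoc, mul_assoc,
      inv_mul_cancel₀ t0, mul_one, mul_comm]
    rfl

end Vale.Agent.P283R.Zz
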