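import Vale.Agent.P283R.Zz.St
import Vale.Agent.P283R.Ft.Opn11
import Vale.Agent.P287D.On.Nor

/-!
# P283R, block ZZ: the general member (row `BRT`)
-/

open Set CategoryTheory AlgebraicGeometry

noncomputable section

namespace Vale.Agent.P283R.Zz

open Vale.Agent.P287D Vale.Agent.P297Z
open Vale.Agent.P289 (Pt St toRat val DForm dimension)
open Vale.Agent.P283M Vale.Agent.P283M.Stm Vale.Agent.P283M.Stm.Var
open Vale.Agent.P283M.Br (Dom har fin plc mdc mod frm ffd pl_of dom_S loc_uniq)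
open Cf (gl)
open Cf.Dw

/-- a general member loses at most the factor `1 / M` on every chart -/
theorem B11.gen {k : Type} [Field k] [Algebra ℂ k] {n : ℕ} (hk : FF k (n + 1))
    {y : Fin (n + 1) → k} (hy : Frm y) {u : Finset k} (hu : Nz u)
    (M : ℕ) {ι : Type} [Finite ι] (v : ι → Finset k) (c₀ : k) (c : ι → k) (r₀ : ℝ) (r : ι → ℝ) :
    ∃ g ∈ Submodule.span ℂ (u : Set k), g ≠ 0 ∧ (∀ w : Pl k, 0 ≤ (w.ord g : ℝ) + w.mz u) ∧ ∀ j,
      (∀ w : Pl k, (∀ a ∈ v j, a ∈ w.ring) → 0 ≤ gl y M u w - r₀ * w.ord c₀ - r j * w.ord (c j)) →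
      ∀ w : Pl k, (∀ a ∈ v j, a ∈ w.ring) →
        (w.ord g : ℝ) + w.mz u ≤ gl y M u w - r₀ * w.ord c₀ - r j * w.ord (c j) := by
  classical
  obtain ⟨D, hD⟩ := hy
  obtain ⟨J, -, e⟩ := Aj.kap_cn hD
  let B : Set (BD k) := {dv J, mx u, dv c₀} ∪ (range fun j => dv (c j)) ∪
    range fun j => mx (insert 1 (v j))
  obtain ⟨g, g1, g0, -, H⟩ := Be.ber_all (T₀ := ∅) (B := B) hk finite_empty
    (((toFinite _).union (finite_range _)).union (finite_range _)) (by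
      rintro β (((rfl | rfl | rfl) | ⟨j, rfl⟩) | ⟨j, rfl⟩)
      exacts [dv_mem_Car _, mx_mem_Car _, dv_mem_Car _, dv_mem_Car _, mx_mem_Car _]) hu
  refine ⟨g, g1, g0, fun w => ?_, fun j hj w hw => ?_⟩
  · have : ((-w.ord g : ℤ) : ℝ) ≤ w.mz u := Int.cast_le.2 (w.le_mz_of_span g1 g0)
    push_cast at this
    linarith
  · have e' : ∀ P, dsc (n + 1) (r₀ • dv c₀ + r j • dv (c j) - dv J - (M : ℝ)⁻¹ • mx u) P + 1 =
        gl y M u P - r₀ * P.ord c₀ - r j * P.ord (c j) := fun P => by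
      simp only [dsc, gl, e, Pi.sub_apply, Pi.add_apply, Pi.smul_apply, smul_eq_mul, dv, mx]
      ring
    have s : ∀ β ∈ B, β ∈ Submodule.span ℝ B := fun _ h => Submodule.subset_span h
    have := H _ (sub_mem (sub_mem (add_mem
      (Submodule.smul_mem _ r₀ (s _ (.inl (.inl (.inr (.inr rfl))))))
      (Submodule.smul_mem _ (r j) (s _ (.inl (.inr ⟨j, rfl⟩))))) (s _ (.inl (.inl (.inl rfl)))))
      (Submodule.smul_mem _ (M : ℝ)⁻¹ (s _ (.inl (.inl (.inr (.inl rfl))))))) w fun P hP => by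
        have h1 := (P283R.Br.cle_aff (Finset.mem_insert_self 1 (v j))
          (hP _ (s _ (.inr ⟨j, rfl⟩)))
          fun b hb => (Finset.mem_insert.1 hb).elim (fun h => h ▸ one_mem _) (hw b)).1
        have h2 := hj P fun a ha => h1 a (Finset.mem_insert_of_mem ha)
        linarith [e' P]
    rw [e'] at this
    exact this

/-- **BRT** -/
theorem brt11 : BRT := by
  classical
  intro X d q ε ω D u hd q2 ε0 hdim hω fD sc gd
  obtain ⟨n, rfl⟩ := Nat.exists_eq_add_of_le' hd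
  have hK := ffd X _ hdim
  obtain ⟨j, j0, fr⟩ := frm X _ hK ω hω
  obtain ⟨y, Dy, fy, ey⟩ := P287D.Cb.exists_cn hK
  have q0 : 0 < q := by omega
  have q1 : (q : ℚ) ≠ 0 := Nat.cast_ne_zero.2 q0.ne'
  have q3 : (2 : ℝ) ≤ q := by exact_mod_cast q2
  have ex : ∀ g : X.K, ∃ B : X.QDiv, ∀ E, q * B E = D E + ord g E := fun g =>
    ⟨Finsupp.ofSupportFinite (fun E => ((D E : ℚ) + ord g E) / q) ((fD.union (fin X g)).subset
      fun E hE => by_contra fun k => by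
        rw [mem_union, not_or, mem_ofPred, mem_ofPred, not_not, not_not] at k
        exact hE (by simp [k.1, k.2])), fun E => mul_div_cancel₀ _ q1⟩
  have le : ∀ {g : X.K} {B : X.QDiv} {m a x}, g ≠ 0 → (∀ E, q * B E = D E + ord g E) →
      (LocalEq (kd ω q D) m a x ↔ LocalEq (logCan ω B) (m * q) (a * g ^ m) x) := by
    intro g B m a x g0 hB
    rw [LocalEq, LocalEq, mul_ne_zero_iff, and_iff_left (pow_ne_zero m g0)]
    refine and_congr_right fun a0 => forall₂_congr fun E _ => ?_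
    obtain ⟨P, -, o⟩ := pl_of plc E
    have := hB E
    rw [o] at this
    rw [o, o, Pl.ord_mul _ a0 (pow_ne_zero _ g0), Pl.ord_pow, kd, logCan]
    push_cast
    constructor <;> intro h
    · linear_combination h - m * this
    · linear_combination h + m * this
  obtain ⟨B₀, h₀⟩ := ex 1
  obtain ⟨ι, _, W, v, δ, cov, ch⟩ := Ft.B11.chs (Δ := ℕ × X.K)
    (fun δ => {_x | 0 < δ.1} ∩ {x | LocalEq (logCan ω B₀) (δ.1 * q) (δ.2 * 1 ^ δ.1) x})
    (fun δ => isOpen_const.inter (P283R.Br.open_localEq hK fr _ _ _)) fun y => by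
    obtain ⟨m, a, m0, ha⟩ := (gd y).1
    exact ⟨(m, a), m0, (le one_ne_zero h₀).1 ha⟩
  have m0 : ∀ i, 0 < (δ i).1 := fun i => let ⟨_, h⟩ := (ch i).1; h.1
  have ea : ∀ i, ∀ x ∈ W i, LocalEq (kd ω q D) (δ i).1 (δ i).2 x :=
    fun i x hx => (le one_ne_zero h₀).2 ((ch i).2.2.2 x hx).2
  have key : ∀ i (w : Pl X.K), (∀ b ∈ v i, b ∈ w.ring) → Nz u ∧
      ε ≤ gl y q u w - -1 * w.ord j - (((δ i).1 * q : ℕ) : ℝ)⁻¹ * w.ord (δ i).2 := fun i w hw => by
    obtain ⟨x, s1, s2⟩ := (ch i).2.2.1 w hw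
    obtain ⟨M, E, rfl, r⟩ := mod X w x s2
    have o := (plc X M.Y M.pull (mdc X M).1 E).2 w r
    obtain ⟨ψ, p1, p0, p2⟩ := (gd _).2 M E rfl _ _ (m0 i) (ea i _ s1)
    rw [fr _ _ E w r o, o, o, ey] at p2
    have p3 : (-w.ord ψ : ℝ) / q ≤ w.mz u / q := div_le_div_of_nonneg_right
      (by exact_mod_cast w.le_mz p1 p0) (by linarith)
    refine ⟨⟨ψ, p1, p0⟩, ?_⟩
    rw [gl, Nat.cast_mul, mul_inv, ← div_eq_mul_inv]
    rw [add_div, div_eq_inv_mul (w.ord (δ i).2 : ℝ), ← div_mul_eq_mul_div] at p2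
    rw [neg_div] at p3
    linarith
  have nz : Nz u := by
    obtain ⟨i, -⟩ := cov (genericPoint X.X)
    obtain ⟨P, hP⟩ := On.exists_unit hK (v i).finite_toSet
    exact (key i P fun b hb => by
      by_cases b0 : b = 0
      · exact b0 ▸ zero_mem _
      · exact (Pl.ord_nonneg_iff _ b0).1 (hP b hb).ge).1
  obtain ⟨g, g1, g0, lo, hi⟩ := B11.gen hK ⟨Dy, fy⟩ nz q v j (fun i => (δ i).2) (-1)
    fun i => (((δ i).1 * q : ℕ) : ℝ)⁻¹
  obtain ⟨B, hB⟩ := ex g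
  refine ⟨g, g1, g0, B, hB, fun E _ => ?_, fun ξ _ => ?_, fun Mo E _ l b l0 hb => ?_⟩
  · obtain ⟨w, -, o⟩ := pl_of plc E
    obtain ⟨ψ, p1, p0, p2⟩ := w.exists_mz nz
    have a := sc ψ p1 p0 E
    have b : 0 ≤ w.ord g + w.mz u := by exact_mod_cast lo w
    have c : (0 : ℚ) ≤ D E + ord g E := by
      rw [o] at a ⊢
      exact_mod_cast (by omega : 0 ≤ D E + w.ord g)
    exact nonneg_of_mul_nonneg_right (hB E ▸ c) (Nat.cast_pos.2 q0)
  · obtain ⟨i, s1⟩ := cov ξ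
    exact ⟨_, _, Nat.mul_pos (m0 i) q0, (le g0 hB).1 (ea i _ s1)⟩
  · obtain ⟨⟨Q, e⟩, o⟩ := plc X Mo.Y Mo.pull (mdc X Mo).1 E
    have dm := (mdc X Mo).2 E Q e
    obtain ⟨i, s1⟩ := cov (E.1.map Mo.π)
    have t := loc_uniq har plc hb ((le g0 hB).1 (ea i _ s1)) dm
    have l1 : (l : ℝ) ≠ 0 := Nat.cast_ne_zero.2 l0.ne'
    have m1 : (0 : ℝ) < (δ i).1 := Nat.cast_pos.2 (m0 i)
    have t' : (Q.ord b : ℝ) / l =
        (((δ i).1 * q : ℕ) : ℝ)⁻¹ * Q.ord (δ i).2 + Q.ord g / q := by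
      rw [Pl.ord_mul _ (ea i _ s1).1 (pow_ne_zero _ g0), Pl.ord_pow] at t
      have : (q : ℝ) ≠ 0 := by linarith
      push_cast at t ⊢
      field_simp
      linarith
    have hw : ∀ b ∈ v i, b ∈ Q.ring := fun b hb => (dm b ((ch i).2.1 b hb _ s1)).1
    have k1 := (key i Q hw).2
    have k2 := hi i (fun w h => ε0.le.trans (key i w h).2) Q hw
    have k3 : ((Q.ord g : ℝ) + Q.mz u) / q ≤ (Q.ord g + Q.mz u) / 2 :=
      div_le_div_of_nonneg_left (lo Q) two_pos q3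
    show ε / 2 ≤ _
    rw [fr _ _ E Q e (o Q e), o Q e, t', ey]
    rw [gl] at k1 k2
    rw [add_div] at k3
    linarith

end Vale.Agent.P283R.Zz
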