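import Vale.Agent.P283R.Zz.St

/-!
# P283R, block ZZ: the section at one divisor (row `END`)
-/

set_option linter.all false

open Set CategoryTheory AlgebraicGeometry

noncomputable section

namespace Vale.Agent.P283R.Zz

open Vale.Agent.P289 (Pt St toRat val DForm dimension)
open Vale.Agent.P287D Vale.Agent.P283M Vale.Agent.P283M.Stm Vale.Agent.P283M.Stm.Var
open Vale.Agent.P283M.Br Vale.Agent.P283R.Br Vale.Agent.P297Z
open Vale.Agent.P283R.Et (Pe Rat exists_rat)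
open Vale.Agent.P283R.Eb (Ep Bc Lin ord_mul' ord_pow' lin_of)

theorem end14 : END := fun X Z Y W f e g π ι bc d q n ω ω' B B₂ D φ g₀ V M E w wV _ q0 n0 hd h0
    h0' g0 hB rel Ew le ⟨U, Λ, a, wU, lΛ, pr, lq⟩ => by
  have h := bc.ep
  let _ := ι.toAlgebra
  have := h.tower
  have hK := ffd X _ hd
  have hK' := ffd Y _ (Eb.dim X Y π ι h d hd)
  obtain ⟨s, s0, fr⟩ := frm X _ hK ω h0
  obtain ⟨s', s0', fr'⟩ := frm Y _ hK' ω' h0'
  obtain ⟨J, hJ⟩ := exists_rat hK hK'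
  have l := lin_of Eb.div h hK hK' s0 s0' fr fr' hJ (B := 0) (B' := 0) fun _ _ _ => rfl
  have sq : ∀ y : Pt Y.X, f (π y) = e (g y) := fun y => by
    rw [← Scheme.Hom.comp_apply, bc.pb.w, Scheme.Hom.comp_apply]
  have xU : Pt.map π (Pt.map M.π E.1) ∈ f ⁻¹ᵁ U := by
    change f (π _) ∈ U
    rw [sq]
    exact (congrArg (fun v : Pt W.X => Pt.map e v ∈ U) Ew).mpr wU
  have hg := lq _ xU
  have a1 := mul_ne_zero ((map_ne_zero ι).2 hg.1) (pow_ne_zero n l.1)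
  have g1 := (map_ne_zero ι).2 g0
  have b1 := div_ne_zero rel.1 g1
  refine ⟨V ⊓ e ⁻¹ᵁ U, (ι a * (J * s' / ι s) ^ n) ^ q * (φ / ι g₀) ^ n, ⟨wV, wU⟩,
    mul_ne_zero (pow_ne_zero _ a1) (pow_ne_zero _ b1), fun F hF => ?_, ?_⟩
  · obtain ⟨y, y1, y2⟩ := Eb.div X Y π ι h F
    have yU : y.1 ∈ f ⁻¹ᵁ U := by
      rw [← y1]
      change f (π _) ∈ U
      rw [sq]
      exact hF.2
    have k1 := (lq _ yU).2 y specializes_rfl
    have k2 := l.2 F y y1
    have k3 := rel.2 F y hF.1 y1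
    have k4 := hB y
    have k5 := lΛ y yU
    have k6 : ord φ F = ord (φ / ι g₀) F + ord g₀ y := by
      rw [← y2, ← ord_mul' b1 g1, div_mul_cancel₀ _ g1]
    rw [ord_mul' (pow_ne_zero _ a1) (pow_ne_zero _ b1), ord_pow', ord_pow',
      ord_mul' ((map_ne_zero ι).2 hg.1) (pow_ne_zero n l.1), ord_pow', y2]
    simp only [logCan, Finsupp.coe_zero, Pi.zero_apply, add_zero] at k1 k2 ⊢
    rw [k6] at k3
    push_cast at k3 ⊢
    have k7 : (0 : ℚ) ≤ q * n * (Λ y - B₂ y) := by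
      have := sub_nonneg.2 k5
      positivity
    rw [k1, k2]
    linear_combination k7 + n * k3 - n * k4
  · obtain ⟨⟨Q, i'⟩, o⟩ := plc Y M.Y M.pull (mdc Y M).1 E
    have dq := (mdc Y M).2 E Q i'
    obtain ⟨P, lp⟩ := Pb.down hK hK' Q
    have dp := h.dom lp dq
    obtain ⟨M₀, E₀, e₀, i⟩ := mod X P _ dp
    have o₀ := (plc X M₀.Y M₀.pull (mdc X M₀).1 E₀).2 P i
    have k := pr.2.2 M₀ E₀ (e₀ ▸ xU) n a n0 (e₀ ▸ hg)
    rw [fr _ _ E₀ P i o₀, o₀, ← dsc_eq n0 hg.1 s0] at k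
    have e1 : (0 : ℝ) < Q.ord (algebraMap X.K Y.K P.t) := by exact_mod_cast lp.e_pos
    have b := mul_pos e1 k
    have s1 := (map_ne_zero ι).2 s0
    have c : algebraMap X.K Y.K (a / s ^ n) * J ^ n = ι a * (J * s' / ι s) ^ n / s' ^ n := by
      change ι _ * _ = _
      rw [map_div₀, map_pow, div_pow, mul_pow]
      field_simp
    rw [← hJ.dsc_up hK hK' n0 (div_ne_zero hg.1 (pow_ne_zero _ s0)) lp, c,
      dsc_eq n0 a1 s0'] at b
    rw [o Q i', o Q i'] at le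
    rw [fr' _ _ E Q i' (o Q i'), o Q i', Pl.ord_mul _ (pow_ne_zero _ a1) (pow_ne_zero _ b1),
      Pl.ord_pow, Pl.ord_pow, Pl.ord_div _ rel.1 g1]
    refine b.trans_le (add_le_add_right (sub_le_sub_left ?_ _) _)
    have q1 : (0 : ℝ) < q := Nat.cast_pos.2 q0
    have n1 : (0 : ℝ) < n := Nat.cast_pos.2 n0
    have le' : (Q.ord φ : ℝ) - Q.ord (ι g₀) ≤ 0 := sub_nonpos.2 (by exact_mod_cast le)
    rw [div_le_div_iff₀ (by positivity) n1]
    push_cast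
    nlinarith [mul_nonneg (mul_pos n1 n1).le (neg_nonneg.2 le')]

end Vale.Agent.P283R.Zz
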