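import Vale.Agent.P283R.Zz.St

/-!
# P283R, block ZZ: finitely many sections generate
-/

open Set CategoryTheory AlgebraicGeometry
open Vale.Agent.P289 Vale.Agent.P289.H219 Vale.Agent.P270L Vale.Agent.P283M.Am Vale.Agent.P299.G

noncomputable section

namespace Vale.Agent.P283R.Zz

open Vale.Agent.P287D Vale.Agent.P283M Vale.Agent.P283M.Br Vale.Agent.P283M.Stm.Var
open Vale.Agent.P297Z

namespace F31

variable {X : Stm.Var} {U : X.X.Opens} {x : Pt X.X}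

theorem den (hU : IsAffineOpen U) (hx : x ∈ U) {c : X.PrimeDiv → ℤ} (fc : {F | c F ≠ 0}.Finite) :
    ∃ a : X.K, a ≠ 0 ∧ ∀ F : X.PrimeDiv, F.1 ∈ U → -c F ≤ ord a F := by
  classical
  choose P i o using fun E : X.PrimeDiv => pl_of plc E
  have gU : genericPoint X.X ∈ U := (genericPoint_specializes x).mem_open U.isOpen hx
  have ex : ∀ F : X.PrimeDiv, ∃ p : X.K, p ≠ 0 ∧ (∀ E : X.PrimeDiv, E.1 ∈ U → 0 ≤ (P E).ord p) ∧
      (F.1 ∈ U → 1 ≤ (P F).ord p) := fun F => by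
    obtain ⟨b, h1, h2, h3⟩ := Am.frac hU gU (P270L.S.mem_loc_gen (P F).t)
    refine ⟨b * (P F).t, mul_ne_zero h2.1 (Pb.t_ne _), fun E e =>
      Pl.ord_nonneg_of_mem _ ((i E _).2 (mem_reg.1 h3 _ e)), fun e => ?_⟩
    have := Pl.ord_nonneg_of_mem _ ((i F _).2 (mem_reg.1 h1 _ e))
    rw [Pl.ord_mul _ h2.1 (Pb.t_ne _), Pb.ord_t]
    exact le_add_of_nonneg_left this
  choose p p0 p1 p2 using ex
  refine ⟨∏ F ∈ fc.toFinset, p F ^ (c F).natAbs,
    Finset.prod_ne_zero_iff.2 fun F _ => pow_ne_zero _ (p0 F), fun E e => ?_⟩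
  rw [o, Pl.ord_prod _ _ fun F _ => pow_ne_zero _ (p0 F)]
  have nn : ∀ F ∈ fc.toFinset, 0 ≤ (P E).ord (p F ^ (c F).natAbs) := fun F _ => by
    rw [Pl.ord_pow]
    exact mul_nonneg (Int.natCast_nonneg _) (p1 F E e)
  by_cases z : c E = 0
  · rw [z, neg_zero]
    exact Finset.sum_nonneg nn
  refine le_trans ?_ (Finset.single_le_sum nn (fc.mem_toFinset.2 z))
  rw [Pl.ord_pow]
  have := mul_le_mul_of_nonneg_left (p2 E e) (Int.natCast_nonneg (c E).natAbs)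
  omega

theorem aff (hU : IsAffineOpen U) (hx : x ∈ U) {c : X.PrimeDiv → ℤ} (fc : {F | c F ≠ 0}.Finite)
    {S : Set X.K} (hS : ∀ ψ ∈ S, ψ ≠ 0 ∧ ∀ F : X.PrimeDiv, F.1 ∈ U → c F ≤ ord ψ F) :
    ∃ u : Finset X.K, ↑u ⊆ S ∧ ∀ φ ∈ S, ∃ b : X.K → X.K, (∀ ψ, b ψ ∈ reg U) ∧
      (∀ ψ ∉ u, b ψ = 0) ∧ φ = ∑ ψ ∈ u, ψ * b ψ := by
  obtain ⟨A, h1, h2⟩ := (Am.str X).fg hU hx
  obtain ⟨a, a0, ha⟩ := den hU hx fc
  let R := Algebra.adjoin ℂ (A : Set X.K)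
  have : IsNoetherianRing R := isNoetherianRing_of_fg (Subalgebra.fg_adjoin_finset A)
  have le : ∀ g ∈ R, g ∈ reg U := fun g hg => by
    induction hg using Algebra.adjoin_induction with
    | mem _ h => exact h1 _ h
    | algebraMap r => exact mem_reg.2 fun p _ => (Am.str X).const p r
    | add _ _ _ _ p q => exact add_mem p q
    | mul _ _ _ _ p q => exact mul_mem p q
  have fg : (Submodule.span R S).FG := (Submodule.fg_span_singleton a⁻¹).of_le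
    (Submodule.span_le.2 fun ψ h => Submodule.mem_span_singleton.2 ⟨⟨a * ψ, h2 _ (mem_reg.2
      fun y hy => har X _ y fun E s => by
        have e := s.mem_open U.isOpen hy
        obtain ⟨P, -, o⟩ := pl_of plc E
        have b := ha E e
        have b' := (hS ψ h).2 E e
        rw [o] at b b' ⊢
        rw [Pl.ord_mul _ a0 (hS ψ h).1]
        omega)⟩, by
      change a * ψ * a⁻¹ = ψ
      rw [mul_comm a, mul_inv_cancel_right₀ a0]⟩)
  obtain ⟨u, u1, u2⟩ := (Submodule.fg_span_iff_fg_span_finset_subset S).1 fg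
  refine ⟨u, u1, fun φ h => ?_⟩
  obtain ⟨f, f1, f2⟩ := Submodule.mem_span_finset.1 (u2 ▸ Submodule.subset_span h)
  refine ⟨fun ψ => f ψ, fun ψ => le _ (f ψ).2, fun ψ n => ?_, ?_⟩
  · have : f ψ = 0 := by_contra fun z => n (f1 z)
    simp [this]
  · rw [← f2]
    exact Finset.sum_congr rfl fun ψ _ => mul_comm _ _

end F31

/-- **FIN** -/
theorem fin31 : FIN := fun X O c fc => by
  classical
  have ex : ∀ x : O, ∃ U : X.X.Opens, IsAffineOpen U ∧ x.1 ∈ U ∧ U ≤ O := fun x => by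
    obtain ⟨_, ⟨U, hU, rfl⟩, a, b⟩ :=
      X.X.isBasis_affineOpens.exists_subset_of_mem_open x.2 O.isOpen
    exact ⟨U, hU, a, b⟩
  choose U hU xU le using ex
  choose u u1 u2 using fun x : O => F31.aff (hU x) (xU x) fc
    (S := {ψ | ψ ≠ 0 ∧ ∀ F : X.PrimeDiv, F.1 ∈ O → c F ≤ ord ψ F})
    fun ψ h => ⟨h.1, fun F e => h.2 F (le x e)⟩
  obtain ⟨T, hT⟩ := cover O (fun x : O => U x) (fun x => (U x).isOpen) fun x hx =>
    ⟨⟨x, hx⟩, xU _⟩
  refine ⟨T.biUnion u, fun ψ h => ?_, fun φ φ0 h x hx => ?_⟩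
  · obtain ⟨y, -, h⟩ := Finset.mem_biUnion.1 h
    exact u1 y h
  obtain ⟨y, yT, xy⟩ := hT x hx
  obtain ⟨b, b1, b2, b3⟩ := u2 y φ ⟨φ0, h⟩
  refine ⟨b, fun ψ => mem_reg.1 (b1 ψ) x xy, b3.trans (Finset.sum_subset
    (Finset.subset_biUnion_of_mem u yT) fun ψ _ n => by rw [b2 ψ n, mul_zero])⟩

end Vale.Agent.P283R.Zz
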