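import Vale.Agent.P283R.Zz.St

/-!
# P283R, block ZZ: the system is made global
-/

open Set CategoryTheory AlgebraicGeometry

noncomputable section

namespace Vale.Agent.P283R.Zz

open Vale.Agent.P289 (Pt DForm)
open Vale.Agent.P283M Vale.Agent.P283M.Stm Vale.Agent.P283M.Stm.Var
open Vale.Agent.P283M.Br (UnAt)
open Vale.Agent.P283R.Et (Pe)
open Vale.Agent.P283R.Eb.Nf (ord_mul ord_pow)

namespace G90

variable {X : Var} {d q : ℕ} {ε : ℝ} {ω : DForm ℂ X.K d} {D : X.PrimeDiv → ℤ} {u u' : Set X.K}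
  {x : Pt X.X}

theorem pe (M : Model X) : Pe M.π (M.pull : X.K →+* M.Y.K) := M.pull_eq

theorem gd (h : Gd ω q ε D u x) (k : ∀ ψ ∈ u, ∃ a, UnAt a x ∧ a * ψ ∈ u') : Gd ω q ε D u' x :=
  ⟨h.1, fun M E e m a m0 l => by
    obtain ⟨ψ, p1, p2, p3⟩ := h.2 M E e m a m0 l
    obtain ⟨b, b1, b2⟩ := k ψ p1
    subst e
    have b3 : UnAt (M.pull b) E.1 := ((pe M).un b1.2.1).2 b1
    have b4 : ord (M.pull b) E = 0 := by exact_mod_cast Eb.Amp.o_un b3 specializes_rfl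
    refine ⟨_, b2, mul_ne_zero b1.1 p2, ?_⟩
    rwa [map_mul, ord_mul b3.1 ((map_ne_zero _).2 p2), b4, zero_add]⟩

end G90

open G90 in
/-- **GLBR** -/
theorem glbr90 : GLBR := by
  intro upg X Z Y W f e g π ι bc d q ε ω w D c M E u U d1 q0 ε0 hd hω aZ cw hE zU att hu hG
  classical
  have := bc.et
  have := LocallyOfFiniteType.jacobsonSpace Z.str
  have cz : IsClosed ({e w} : Set Z.X) := e.closePoints_subset_preimage_closedPoints cw
  have key : ∀ v : Z.X, ∃ (O : Set Z.X) (u' : Finset X.K), IsOpen O ∧ v ∈ O ∧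
      (∀ ψ ∈ u', Sc D ψ ∧ (ψ ≠ 0 → c ≤ ord (M.pull (ι ψ)) E)) ∧
      ∀ x : X.X, f x ∈ O → Gd ω q ε D u' x := fun v => by
    by_cases vU : v ∈ U
    · exact ⟨U, u, U.isOpen, vU, hu, hG⟩
    obtain ⟨σ, τ, κ, j, bs, tv, lin⟩ := att U v zU
    obtain ⟨a, a1, a2⟩ := (isAffineOpen_top Z.X).exists_basicOpen_le (V := ⟨_, cz.isOpen_compl⟩)
      ⟨v, fun h : v = e w => vU (h ▸ zU)⟩ trivial
    obtain ⟨x₀, hx⟩ := bc.con.2.2.1.surj v
    have : Nonempty ↑(f ⁻¹ᵁ ⊤) := ⟨⟨x₀, trivial⟩⟩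
    have un : ∀ x : X.X, UnAt (Am.pl f ⊤ a) x ↔ f x ∈ Z.X.basicOpen a := fun x =>
      Am.un_pl (V := ⊤) trivial a
    have rg : ∀ x : X.X, RegAt (Am.pl f ⊤ a) x := fun x => Am.mem_reg.1 (Am.pl_reg f ⊤ a) x trivial
    generalize Am.pl f ⊤ a = b at un rg
    have b0 : b ≠ 0 := ((un x₀).2 (hx ▸ a2)).1
    have b1 : M.pull (ι b) ≠ 0 := (map_ne_zero _).2 ((map_ne_zero _).2 b0)
    have r1 : RegAt (ι b) (E.1.map M.π) := bc.ep.pe.reg (rg _)
    have b2 : 1 ≤ ord (M.pull (ι b)) E := by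
      have := Eb.Amp.o_pos ((pe M).reg r1) b1 fun k => a1 ((un _).1 ((bc.ep.pe.un (rg _)).1
        (((pe M).un r1).1 k))) (by
          rw [← hE]
          exact congrArg (fun φ : Y.X ⟶ Z.X => φ (E.1.map M.π)) bc.pb.w)
      exact_mod_cast this
    let N := u.sup fun ψ => (c - ord (M.pull (ι (κ ψ / j))) E).toNat
    refine ⟨τ ⁻¹' U ∩ Z.X.basicOpen a, u.image fun ψ => b ^ N * (κ ψ / j),
      (U.isOpen.preimage τ.continuous).inter (Z.X.basicOpen a).isOpen, ⟨tv, a2⟩, fun ψ' h' => ?_,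
      fun x hx => gd (upg X X σ κ bs.ep d q ε ω ω D D j u x d1 q0 ε0 hd hω hω lin (hG _ ?_)) ?_⟩
    · obtain ⟨ψ, h, rfl⟩ := Finset.mem_image.1 h'
      refine ⟨fun h0 F => ?_, fun h0 => ?_⟩
      · have h1 := right_ne_zero_of_mul h0
        have h2 : κ ψ ≠ 0 := fun k => h1 (by rw [k, zero_div])
        obtain ⟨F', f1, f2⟩ := Eb.div X X σ κ bs.ep F
        have h3 : D F = D F' + ord j F := by
          have k : (D F : ℚ) = D F' + ord j F := lin.2 F F' f1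
          exact_mod_cast k
        have h4 := (hu ψ h).1 ((map_ne_zero κ).1 h2) F'
        have h5 := ord_mul h1 lin.1 F
        have h6 := mul_nonneg (Int.natCast_nonneg N) (Eb.Se.reg_ord (rg F.1))
        rw [div_mul_cancel₀ _ lin.1, f2] at h5
        rw [ord_mul (pow_ne_zero N b0) h1, ord_pow b0]
        omega
      · have h1 := right_ne_zero_of_mul h0
        have h2 : (c - ord (M.pull (ι (κ ψ / j))) E).toNat ≤ N :=
          Finset.le_sup (f := fun ψ => (c - ord (M.pull (ι (κ ψ / j))) E).toNat) h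
        have h3 := mul_le_mul_of_nonneg_left b2 (Int.natCast_nonneg N)
        rw [map_mul, map_mul, map_pow, map_pow, ord_mul (pow_ne_zero N b1)
          ((map_ne_zero _).2 ((map_ne_zero _).2 h1)), ord_pow b1]
        omega
    · change f (σ x) ∈ U
      rw [show f (σ x) = τ (f x) from congrArg (fun φ : X.X ⟶ Z.X => φ x) bs.pb.w]
      exact hx.1
    · rintro _ ⟨ψ, h, rfl⟩
      exact ⟨b ^ N, P270L.S.Un.pow ((un x).2 hx.2) N, Finset.mem_coe.2 (Finset.mem_image_of_mem _ h)⟩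
  choose O u' o1 o2 o3 o4 using key
  obtain ⟨T, hT⟩ := Am.cover ⊤ O o1 fun v _ => ⟨v, o2 v⟩
  refine ⟨T.biUnion u', fun ψ h => ?_, fun x => ?_⟩
  · obtain ⟨v, -, h⟩ := Finset.mem_biUnion.1 h
    exact o3 v ψ h
  · obtain ⟨v, a, b⟩ := hT (f x) trivial
    exact gd (o4 v x b) fun ψ h => ⟨1, Br.unAt_one, by
      rw [one_mul]; exact Finset.mem_coe.2 (Finset.mem_biUnion.2 ⟨v, a, h⟩)⟩

end Vale.Agent.P283R.Zz
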