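import Vale.Agent.P283R.Eb.Dim

/-!
# P283R, block ZZ: no place ramifies along an unramified local homomorphism
-/

set_option linter.all false

open Set TensorProduct
open Vale.Agent.P297Z

noncomputable section

namespace Vale.Agent.P283R.Zz.U16

open Vale.Agent.P287D Vale.Agent.P283R.Et

variable {O O' K K' : Type} [CommRing O] [IsDomain O] [CommRing O'] [Field K] [Field K']
  [Algebra ℂ K] [Algebra ℂ K'] [Algebra O K] [IsFractionRing O K] [Algebra O' K'] [Algebra O O']
  [Algebra K K'] [Algebra O K'] [IsScalarTower O K K'] [IsScalarTower O O' K'] [Module.Flat O O']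
  {P : Pl K} {P' : Pl K'}

theorem e1 [Algebra.FormallyUnramified O O'] [Algebra.EssFiniteType O O'] [IsFractionRing O' K']
    (l : Lies (algebraMap K K') P' P) (h : Et.Ov O' P') : P'.ord (algebraMap K K' P.t) = 1 := by
  let _ : Algebra O P.ring := ((algebraMap O K).codRestrict P.ring (ov_down l h)).toAlgebra
  let _ : Algebra O' P'.ring := ((algebraMap O' K').codRestrict P'.ring h).toAlgebra
  let _ : Algebra P.ring P'.ring := (((algebraMap K K').comp P.ring.subtype).codRestrict P'.ring
    fun a => (l a).1 a.2).toAlgebra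
  let _ : Algebra O P'.ring := ((algebraMap O' P'.ring).comp (algebraMap O O')).toAlgebra
  have : IsScalarTower O O' P'.ring := .of_algebraMap_eq fun _ => rfl
  have : IsScalarTower O P.ring P'.ring := .of_algebraMap_eq fun a => Subtype.ext (sq a)
  let φ : P.ring ⊗[O] O' →ₐ[P.ring] P'.ring := Algebra.TensorProduct.lift (Algebra.ofId _ _)
    (IsScalarTower.toAlgHom O O' P'.ring) fun _ _ => .all _ _
  let p : Ideal (P.ring ⊗[O] O') := (IsLocalRing.maximalIdeal P'.ring).comap φ
  have : p.IsPrime := Ideal.comap_isPrime _ _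
  let S := Localization.AtPrime p
  have un : ∀ y : p.primeCompl, IsUnit (φ.toRingHom y) := fun y => by_contra fun c =>
    y.2 (Ideal.mem_comap.2 ((IsLocalRing.mem_maximalIdeal _).2 c))
  let ψ : S →+* P'.ring := IsLocalization.lift (M := p.primeCompl) un
  have e0 : ∀ y, ψ (algebraMap _ S y) = φ y := fun y => IsLocalization.lift_eq un y
  have e2 : ∀ a : P.ring, ψ (algebraMap P.ring S a) = algebraMap P.ring P'.ring a := fun a => by
    rw [IsScalarTower.algebraMap_apply P.ring (P.ring ⊗[O] O') S, e0, φ.commutes]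
  have := Algebra.FormallyUnramified.of_isLocalization (Rₘ := S) p.primeCompl
  have := Algebra.EssFiniteType.of_isLocalization S p.primeCompl
  have := Algebra.FormallyUnramified.comp P.ring (P.ring ⊗[O] O') S
  have := Algebra.EssFiniteType.comp P.ring (P.ring ⊗[O] O') S
  have : IsLocalHom (algebraMap P.ring S) := ⟨fun a u => by
    by_contra c
    refine (Pl.mem_maximalIdeal_iff P'.toPlace (algebraMap P.ring P'.ring a)).2 ?_
      (e2 a ▸ u.map ψ)
    exact ((Pl.mem_maximalIdeal_iff P.toPlace a).1 c).imp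
      (fun e => (congrArg (algebraMap K K') e).trans (map_zero _)) (l.ord_pos_iff _).2⟩
  have e := Algebra.FormallyUnramified.map_maximalIdeal (R := P.ring) (S := S)
  have t0 := (map_ne_zero (algebraMap K K')).2 P.t_ne
  have tm : P.t ∈ P.ring := (Pl.ord_nonneg_iff _ P.t_ne).1 (by rw [P.ord_t]; omega)
  have sp : IsLocalRing.maximalIdeal P.ring ≤ Ideal.span {⟨P.t, tm⟩} := fun a ha => by
    refine Ideal.mem_span_singleton'.2 ⟨⟨a / P.t, ?_⟩, Subtype.ext (div_mul_cancel₀ _ P.t_ne)⟩
    rcases (Pl.mem_maximalIdeal_iff P.toPlace a).1 ha with c | c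
    · rw [c, zero_div]; exact zero_mem _
    · have a0 : (a : K) ≠ 0 := fun e => by simp [e] at c
      rw [← Pl.ord_nonneg_iff _ (div_ne_zero a0 P.t_ne), Pl.ord_div _ a0 P.t_ne, P.ord_t]
      omega
  have ep := l.e_pos
  have k : ∀ (n : ℕ) (s : S), (ψ s : K') ≠ 0 → P'.ord (ψ s : K') = n →
      P'.ord (algebraMap K K' P.t) ∣ n := fun n => by
    induction n using Nat.strong_induction_on with
    | _ n ih =>
      intro s s0 hs
      rcases n.eq_zero_or_pos with rfl | n0
      · exact dvd_zero _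
      have m : s ∈ IsLocalRing.maximalIdeal S := fun u =>
        (Pl.mem_maximalIdeal_iff P'.toPlace (ψ s)).2 (.inr (by
          change 0 < P'.ord (ψ s : K')
          omega)) (u.map ψ)
      rw [← e] at m
      have m' := Ideal.map_mono sp m
      rw [Ideal.map_span, image_singleton] at m'
      obtain ⟨s', rfl⟩ := Ideal.mem_span_singleton'.1 m'
      have c : (ψ (s' * algebraMap P.ring S ⟨P.t, tm⟩) : K') = ψ s' * algebraMap K K' P.t := by
        rw [map_mul, e2]; rfl
      rw [c] at s0 hs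
      have s1 := left_ne_zero_of_mul s0
      rw [Pl.ord_mul _ s1 t0] at hs
      have p0 := Pl.ord_nonneg_of_mem P'.toPlace (ψ s').2
      obtain ⟨r, hr⟩ := Int.eq_ofNat_of_zero_le p0
      have hr' : P'.ord (ψ s' : K') = r := hr
      rw [← hs, hr']
      exact dvd_add (ih r (by omega) s' s1 hr') dvd_rfl
  have k2 : ∀ a : O', algebraMap O' K' a ≠ 0 →
      P'.ord (algebraMap K K' P.t) ∣ P'.ord (algebraMap O' K' a) := fun a a0 => by
    have c : (ψ (algebraMap _ S ((1 : P.ring) ⊗ₜ[O] a)) : K') = algebraMap O' K' a := by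
      rw [e0]
      simp only [φ, Algebra.TensorProduct.lift_tmul, map_one, one_mul]
      rfl
    obtain ⟨r, hr⟩ := Int.eq_ofNat_of_zero_le (Pl.ord_nonneg_of_mem P'.toPlace (h a))
    have hr' : P'.ord (algebraMap O' K' a) = r := hr
    rw [hr']
    exact k r _ (c ▸ a0) (c ▸ hr')
  have : Nontrivial O' := (algebraMap O' K').domain_nontrivial
  obtain ⟨a, b, hb, c⟩ := IsFractionRing.div_surjective (A := O') P'.t
  have b0 : algebraMap O' K' b ≠ 0 := IsFractionRing.to_map_ne_zero_of_mem_nonZeroDivisors hb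
  have a0 : algebraMap O' K' a ≠ 0 := fun z => P'.t_ne (by rw [← c, z, zero_div])
  have d := dvd_sub (k2 a a0) (k2 b b0)
  rw [← Pl.ord_div _ a0 b0, c, P'.ord_t] at d
  exact Int.eq_one_of_dvd_one ep.le d

open Vale.Agent.P289 (Pt)
open Vale.Agent.P283M Vale.Agent.P283M.Stm.Var

/-- places through a point of an étale cover are not ramified -/
theorem unr {X Y : Stm.Var} {π : Y.X ⟶ X.X} {ι : X.K →+* Y.K} (h : Eb.Ep π ι) (y : Pt Y.X)
    {P : Pl X.K} {Q : Pl Y.K} (l : Lies ι Q P) (k : ∀ a, RegAt a y → a ∈ Q.ring) :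
    Q.ord (ι P.t) = 1 := h.loc y fun O O' _ _ _ _ _ _ _ _ _ _ _ _ _ _ _ _ _ _ _ _ e _ r' => by
  subst e
  exact e1 (O := O) (O' := O') l fun a => k _ ((r' _).2 ⟨a, rfl⟩)

end Vale.Agent.P283R.Zz.U16
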