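import Vale.Agent.P283R.Zz.St
import Vale.Agent.P283R.Zz.Unr16

/-!
# P283R, block ZZ: the system is `ε`-lc below
-/

set_option linter.all false

open Set CategoryTheory AlgebraicGeometry

noncomputable section

namespace Vale.Agent.P283R.Zz

open Vale.Agent.P289 (Pt St toRat val DForm dimension)
open Vale.Agent.P287D Vale.Agent.P283M Vale.Agent.P283M.Stm Vale.Agent.P283M.Stm.Var
open Vale.Agent.P283M.Br Vale.Agent.P283R.Br Vale.Agent.P297Z
open Vale.Agent.P283R.Et (Pe Rat exists_rat)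
open Vale.Agent.P283R.Eb (ord_mul' ord_pow' lin_of)

theorem locr16 : LOCR := by
  intro qcd X Y π ι h d q ε ω ω' B D φ u O hd hq hdim h0 h0' fD hB rel ⟨k, ψ, c, c1, c2, c3⟩ y hy
  obtain ⟨d, rfl⟩ : ∃ m, d = m + 1 := ⟨d - 1, by omega⟩
  let _ := ι.toAlgebra
  have := h.tower
  have hK := ffd X _ hdim
  have hK' := ffd Y _ (Eb.dim X Y π ι h _ hdim)
  obtain ⟨s, s0, fr⟩ := frm X _ hK ω h0
  obtain ⟨s', s0', fr'⟩ := frm Y _ hK' ω' h0'
  obtain ⟨J, hJ⟩ := exists_rat hK hK'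
  have l := lin_of Eb.div h hK hK' s0 s0' fr fr' hJ (B := 0) (B' := 0) fun _ _ _ => rfl
  have s1 := (map_ne_zero ι).2 s0
  obtain ⟨j, hj⟩ : ∃ j, j = J * s' / ι s := ⟨_, rfl⟩
  rw [← hj] at l
  have j0 := mul_ne_zero (pow_ne_zero q l.1) rel.1
  have lq : Lq π O 1 (fun E => q * logCan ω' B E) (kd ω q D) (j ^ q * φ) := ⟨j0, fun E F a b => by
    have a1 := l.2 E F b
    have a2 := rel.2 E F a b
    simp only [logCan, Finsupp.coe_zero, Pi.zero_apply, add_zero] at a1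
    rw [ord_mul' (pow_ne_zero q l.1) rel.1, ord_pow']
    simp only [logCan, kd, a1]
    push_cast
    linarith⟩
  obtain ⟨m', g', m0', hg'⟩ := hB.2.1 y trivial
  have e1 : LocalEq (fun E => q * logCan ω' B E) m' (g' ^ q) y :=
    ⟨pow_ne_zero _ hg'.1, fun E a => by
      rw [ord_pow']
      push_cast
      rw [hg'.2 E a]
      ring⟩
  refine ⟨(qcd X Y π ι h O _ _ _ _ m' y hy (((form_fin hK fr).union fD).subset fun F z =>
    by_contra fun n => z (by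
      rw [mem_union, not_or, mem_setOf, mem_setOf, not_not, not_not] at n
      simp [kd, n.1, n.2])) lq e1).elim fun b hb => ⟨m', b, m0', hb⟩,
    fun M E e m a m0 ha => ?_⟩
  have a0 := (map_ne_zero ι).2 ha.1
  have e2 : LocalEq (fun E => q * logCan ω' B E) m (ι a * (j ^ q * φ) ^ m) y :=
    ⟨mul_ne_zero a0 (pow_ne_zero _ j0), fun F hF => by
      obtain ⟨F₀, y1, y2⟩ := Eb.div X Y π ι h F
      have a1 := ha.2 F₀ (y1 ▸ hF.map π.continuous)
      have a2 := lq.2 F F₀ (hF.mem_open O.isOpen hy) y1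
      rw [ord_mul' a0 (pow_ne_zero _ j0), ord_pow', y2]
      push_cast at a2 ⊢
      rw [a1]
      simp only [one_mul] at a2
      rw [a2]
      ring⟩
  obtain ⟨⟨P, p⟩, o⟩ := plc X M.Y M.pull (mdc X M).1 E
  have dp := (mdc X M).2 E P p
  obtain ⟨Q, lp, c4⟩ := Eb.lft X Y π ι h _ y P hdim fun a ha => (dp a (e ▸ ha)).1
  have un := U16.unr h y lp c4
  have oo : ∀ x, Q.ord (ι x) = P.ord x := fun x => by rw [lp.ord, un, one_mul]
  obtain ⟨y', sp, dq⟩ := Crv.exists_gen (O := Q.ring) (y := y) fun a => c4 _ ⟨a, rfl⟩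
  have dq := dom_B dq
  obtain ⟨M', E', e', i⟩ := mod Y Q y' dq
  have oq := (plc Y M'.Y M'.pull (mdc Y M').1 E').2 Q i
  have b1 := hB.2.2 M' E' trivial m' g' m0' (e' ▸ ⟨hg'.1, fun F z => hg'.2 F (z.trans sp)⟩)
  rw [fr' _ _ E' Q i oq, oq] at b1
  have b2 := loc_uniq har plc (x := y') ⟨e1.1, fun F z => e1.2 F (z.trans sp)⟩
    ⟨e2.1, fun F z => e2.2 F (z.trans sp)⟩ dq
  have b3 := hJ.dsc_up hK hK' one_pos one_ne_zero (show Lies (algebraMap X.K Y.K) Q P from lp)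
  rw [show Q.ord (algebraMap X.K Y.K P.t) = 1 from un] at b3
  simp only [dsc, Pi.sub_apply, Pi.smul_apply, smul_eq_mul, dv_apply, map_one, one_mul, pow_one,
    Nat.cast_one, inv_one, Pl.ord_one, Int.cast_one, Int.cast_zero, sub_zero] at b3
  obtain ⟨r, r0, r1⟩ := Et.exists_le (P := Q) (fun r => c4 _ (c2 r y hy)) (c3 ▸ rel.1)
  refine ⟨ψ r, c1 r, (map_ne_zero _).1 r0, ?_⟩
  rw [← c3, oo] at r1
  rw [Pl.ord_mul _ a0 (pow_ne_zero _ j0), Pl.ord_pow, Pl.ord_pow,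
    Pl.ord_mul _ (pow_ne_zero q l.1) rel.1, Pl.ord_pow, oo, hj,
    Pl.ord_div _ (mul_ne_zero hJ.1 s0') s1, Pl.ord_mul _ hJ.1 s0', oo] at b2
  rw [fr _ _ E P p (o P p), o P p, o P p]
  have q0 : (0 : ℝ) < q := Nat.cast_pos.2 hq
  have n0 : (0 : ℝ) < m := Nat.cast_pos.2 m0
  have n0' : (0 : ℝ) < m' := Nat.cast_pos.2 m0'
  have r2 : (P.ord (ψ r) : ℝ) ≤ Q.ord φ := by exact_mod_cast r1
  have b4 : (Q.ord g' : ℝ) / m' =
      (P.ord a / m + Q.ord φ) / q + (Q.ord J + Q.ord s' - P.ord s) := by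
    push_cast at b2
    field_simp
    linarith
  have b5 := div_le_div_of_nonneg_right (add_le_add_right r2 ((P.ord a : ℝ) / m)) q0.le
  linarith

end Vale.Agent.P283R.Zz
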