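import Vale.Agent.P283R.Eb.Nef

/-!
# P283R, block ZZ: nef divisors descend along an étale base change
-/

set_option linter.all false

open Set CategoryTheory AlgebraicGeometry Limits
open Vale.Agent.P289 Vale.Agent.P270L Vale.Agent.P283M.Am Vale.Agent.P299.G

noncomputable section

namespace Vale.Agent.P283R.Zz.N61

open Vale.Agent.P283M Vale.Agent.P283M.Br Vale.Agent.P283M.Stm.Var
open Vale.Agent.P283M.Stm (Contraction Curve NefOver)
open Vale.Agent.P283R.Eb Vale.Agent.P283R.Eb.Nf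

variable {X Z Y W : Stm.Var} {f : X.X ⟶ Z.X} {e : W.X ⟶ Z.X} {g : Y.X ⟶ W.X} {π : Y.X ⟶ X.X}
  {ι : X.K →+* Y.K}

/-- a closed subvariety of a fibre lifts -/
theorem up (h : Bc f e g π ι) {C : Scheme.{0}} [IsIntegral C] (c : C ⟶ X.X) [IsClosedImmersion c]
    {w : W.X} (hw : ∀ z, f (c z) = e w) :
    ∃ c' : C ⟶ Y.X, IsClosedImmersion c' ∧ c' ≫ π = c ∧ ∀ z, g (c' z) = w := by
  have := h.con.2.1
  have := h.et
  have hc : IsClosed ({e w} : Set Z.X) := by
    have k := (c ≫ f).isClosedMap _ isClosed_univ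
    have q : (c ≫ f) '' univ = {e w} := by
      refine Subset.antisymm ?_ ?_
      · rintro _ ⟨z, -, rfl⟩
        exact hw z
      · rintro _ rfl
        exact ⟨genericPoint C, trivial, hw _⟩
    rwa [q] at k
  have hc' : IsClosed ({w} : Set W.X) := Et.closed_pt e hc
  let s := pointOfClosedPoint W.str w hc'
  have := sep Z
  have := sep Y
  have : IsClosedImmersion ((s ≫ e) ≫ Z.str) := by
    rw [Category.assoc, h.ov, pointOfClosedPoint_comp]; infer_instance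
  have : IsClosedImmersion (s ≫ e) := .of_comp _ Z.str
  have : Surjective (pullback.fst (c ≫ f) (s ≫ e)) := ⟨fun z => by
    have : z ∈ range (pullback.fst (c ≫ f) (s ≫ e)) := by
      rw [Scheme.Pullback.range_fst]
      refine ⟨default, Eq.trans ?_ (hw z).symm⟩
      rw [Scheme.Hom.comp_apply]
      exact congrArg e (pointOfClosedPoint_apply _ _ _ _)
    exact this⟩
  have := isIso_of_isClosedImmersion_of_surjective (pullback.fst (c ≫ f) (s ≫ e))
  let l := inv (pullback.fst (c ≫ f) (s ≫ e)) ≫ pullback.snd (c ≫ f) (s ≫ e)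
  have hl : l ≫ s ≫ e = c ≫ f := by
    rw [Category.assoc, ← pullback.condition, IsIso.inv_hom_id_assoc]
  let c' : C ⟶ Y.X := h.pb.lift c (l ≫ s) (by rw [Category.assoc, hl])
  have e1 : c' ≫ π = c := h.pb.lift_fst _ _ _
  have e2 : c' ≫ g = l ≫ s := h.pb.lift_snd _ _ _
  have : IsSeparated (π ≫ X.str) := by rw [h.ep.ov]; infer_instance
  have : IsSeparated π := .of_comp π X.str
  have : IsClosedImmersion (c' ≫ π) := by rw [e1]; infer_instance
  refine ⟨c', .of_comp c' π, e1, fun z => ?_⟩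
  rw [← Scheme.Hom.comp_apply, e2, Scheme.Hom.comp_apply]
  exact pointOfClosedPoint_apply _ _ _ _

/-- the degree on the curves of one fibre -/
theorem nef_pt (hd : DIV) (h : Bc f e g π ι) {D : X.PrimeDiv → ℚ} {D' : Y.PrimeDiv → ℚ} {j : Y.K}
    (hl : Lin π D' D j) {w : Pt W.X}
    (hn : ∀ C : Curve Y, (∀ z : Pt C.C, (z.map C.ι).map g = w) → ∀ m n, C.IsDeg D' m n → 0 ≤ n)
    (C : Curve X) (hw : ∀ z : Pt C.C, (z.map C.ι).map f = w.map e) (m : ℕ) (n : ℤ)
    (k : C.IsDeg D m n) : 0 ≤ n := by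
  obtain ⟨A, c, dm⟩ := C
  obtain ⟨c', _, rfl, e2⟩ := up h c hw
  have : IsLocallyNoetherian A := LocallyOfFiniteType.isLocallyNoetherian c'
  obtain ⟨g₀, v, hg, hv, en⟩ := k
  refine hn ⟨A, c', by rw [← h.ep.ov, ← Category.assoc]; exact dm⟩ e2 m n
    ⟨_, v, le_up (hd X Y π ι h.ep) hl hg, fun z hz => ?_, en⟩
  obtain ⟨b, α, h1, h2, h3⟩ := hv z hz
  have q : ι (b / g₀) = ι b * j ^ m / (ι g₀ * j ^ m) := by
    rw [map_div₀, mul_div_mul_right _ _ (pow_ne_zero _ hl.1)]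
  obtain ⟨β, hβ⟩ := h.ep.pe.reg (y := c' (genericPoint A)) ⟨α, h2⟩
  refine ⟨_, β, le_up (hd X Y π ι h.ep) hl h1, hβ.trans q, ?_⟩
  rw [← h3]
  exact (res c' β hβ).trans ((rs_up h.ep.pe c' ⟨α, h2⟩).trans (res (c' ≫ π) α h2).symm)

/-- **nef divisors descend** -/
theorem nef_dn (hd : DIV) (h : Bc f e g π ι) {D : X.PrimeDiv → ℚ} {D' : Y.PrimeDiv → ℚ} {j : Y.K}
    (hl : Lin π D' D j) (hn : NefOver g D') (C : Curve X) {w : Pt W.X}
    (hw : ∀ z : Pt C.C, (z.map C.ι).map f = w.map e) (m : ℕ) (n : ℤ) (k : C.IsDeg D m n) : 0 ≤ n :=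
  nef_pt hd h hl (fun C a => hn C ⟨w, a⟩) C hw m n k

/-- a surjective family of base changes detects nef divisors -/
theorem nef_cov (hd : DIV) {D : X.PrimeDiv → ℚ} (H : ∀ t : Pt Z.X, ∃ (Y W : Stm.Var)
    (e : W.X ⟶ Z.X) (g : Y.X ⟶ W.X) (π : Y.X ⟶ X.X) (ι : X.K →+* Y.K) (D' : Y.PrimeDiv → ℚ)
    (j : Y.K) (w : Pt W.X), Bc f e g π ι ∧ Lin π D' D j ∧ NefOver g D' ∧ w.map e = t) :
    NefOver f D := fun C ⟨t, ht⟩ m n k => by
  obtain ⟨Y, W, e, g, π, ι, D', j, w, h, hl, hn, rfl⟩ := H t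
  exact nef_dn hd h hl hn C ht m n k

end Vale.Agent.P283R.Zz.N61
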