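import Vale.Agent.P283R.Zz.St
import Vale.Agent.P283R.Zz.Nef61

/-!
# P283R, block ZZ: the rows `NFD` and `NFU`
-/

set_option linter.all false

open Set CategoryTheory AlgebraicGeometry Limits
open Vale.Agent.P289 Vale.Agent.P270L Vale.Agent.P283M.Am Vale.Agent.P299.G

noncomputable section

namespace Vale.Agent.P283R.Zz

open Vale.Agent.P283M Vale.Agent.P283M.Br Vale.Agent.P283M.Stm.Var
open Vale.Agent.P283M.Stm (Contraction Curve NefOver)
open Vale.Agent.P283R.Eb Vale.Agent.P283R.Eb.Nf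

namespace N61

variable {X Z Y W : Stm.Var} {f : X.X ⟶ Z.X} {D : X.PrimeDiv → ℚ} {q m : ℕ}

theorem le_sc {a : X.K} {x : Pt X.X} : LocalEq (fun E => q * D E) m a x ↔ LocalEq D (q * m) a x :=
  and_congr_right fun _ => forall₂_congr fun E _ => by push_cast; rw [mul_left_comm, mul_assoc]

theorem deg_sc {C : Curve X} {n : ℤ} : C.IsDeg (fun E => q * D E) m n ↔ C.IsDeg D (q * m) n := by
  simp only [Curve.IsDeg, le_sc]

theorem deg_pow (q0 : 0 < q) {C : Curve X} {n : ℤ} (k : C.IsDeg D m n) :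
    C.IsDeg D (q * m) (q * n) := by
  obtain ⟨g₀, v, hg, hv, en⟩ := k
  refine ⟨_, fun z => v z ^ q, le_pow hg q, fun z hz => ?_, ?_⟩
  · obtain ⟨b, α, h1, h2, h3⟩ := hv z hz
    obtain ⟨β, hβ⟩ : RegAt ((b / g₀) ^ q) ((Pt.generic C.C).map C.ι) := reg_pow ⟨α, h2⟩ q
    refine ⟨_, β, le_pow h1 q, hβ.trans (div_pow _ _ _), ?_⟩
    beta_reduce
    rw [← h3, res C.ι β hβ, res C.ι α h2]
    exact S.rs_pow ⟨α, h2⟩ q
  · rw [en, mul_finsum]
    refine finsum_congr fun z => ?_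
    by_cases v0 : v z = 0
    · simp [v0, zero_pow q0.ne']
    · exact (ord_pw v0 q z.1).symm

theorem at_sc (q0 : 0 < q) {t : Pt Z.X} : NefAt f (fun E => q * D E) t ↔ NefAt f D t :=
  ⟨fun h C a m n k => le_of_mul_le_mul_left (a := (q : ℤ))
    ((mul_zero _).trans_le (h C a m _ (deg_sc.2 (deg_pow q0 k)))) (by exact_mod_cast q0),
    fun h C a m n k => h C a _ n (deg_sc.1 k)⟩

end N61

open N61 in
/-- **NFD** -/
theorem nfd61 : NFD := by
  intro X Z Y W f e g π ι h V q D D' j w hw q0 hl hn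
  have hd := Eb.div X Y π ι h.ep
  choose c c1 c2 using hd
  refine (at_sc q0).1 (nef_pt Eb.div h (D' := fun E => q * D (c E) + ord j E) (j := j)
    ⟨hl.1, fun E F k => by
      beta_reduce
      rw [show c E = F from Subtype.ext ((c1 E).symm.trans k)]⟩
    fun C a m n k => (at_sc q0).2 hn C a m n ?_)
  have le : ∀ (z : Pt C.C) b, LocalEq (fun E => q * D (c E) + ord j E) m b (z.map C.ι) →
      LocalEq (fun E => q * D' E) m b (z.map C.ι) := fun z b l => ⟨l.1, fun E s => by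
    rw [l.2 E s]
    beta_reduce
    rw [hl.2 E (c E) (s.mem_open (g ⁻¹ᵁ V).isOpen (show Pt.map g _ ∈ V from
      (a z).symm ▸ hw)) (c1 E)]⟩
  obtain ⟨g₀, v, hg, hv, en⟩ := k
  exact ⟨g₀, v, le _ _ hg, fun z hz => let ⟨b, α, h1, h2⟩ := hv z hz; ⟨b, α, le _ _ h1, h2⟩, en⟩

namespace N61

theorem at_up {X Z Y W : Stm.Var} {f : X.X ⟶ Z.X} {e : W.X ⟶ Z.X} {g : Y.X ⟶ W.X}
    {π : Y.X ⟶ X.X} {ι : X.K →+* Y.K} (h : Bc f e g π ι) {D : X.PrimeDiv → ℚ}
    {D' : Y.PrimeDiv → ℚ} {j : Y.K} (hl : Lin π D' D j) (hD : {y | D y ≠ 0}.Finite)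
    (hq : ∀ x, ∃ m a, 0 < m ∧ LocalEq D m a x) {t : Pt W.X} (hn : NefAt f D (t.map e)) :
    NefAt g D' t := by
  intro C ht m n ⟨g₀, w, hg, hw, en⟩
  have := closed h C.ι ht
  let C' : Curve X := ⟨C.C, C.ι ≫ π, by rw [Category.assoc, h.ep.ov]; exact C.dim_one⟩
  obtain ⟨M, M0, hM⟩ := unif hD hq
  have hM' : ∀ x, ∃ a, LocalEq D (m * M) a x := fun x => let ⟨_, k⟩ := hM x; ⟨_, le_pow k m⟩
  choose a hb using hM'
  have up := fun y : Pt Y.X => le_up (Eb.div X Y π ι h.ep) hl (hb (y.map π))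
  have sp : ∀ z, C.ι (genericPoint C.C) ⤳ C.ι z := fun z =>
    (genericPoint_specializes z).map C.ι.continuous
  have pw : ∀ {u : Y.K} {y : Pt Y.X}, LocalEq D' m u y → LocalEq D' (m * M) (u ^ M) y :=
    fun k => mul_comm M m ▸ le_pow k M
  have u0 := le_un (pw hg) (up _)
  obtain ⟨v, uv, rv⟩ := lift (π := π) C.ι ((S.rs_ne_zero u0.2.1).2 u0)
  have hG := le_mul (hb _) uv
  have u1 := fun z => le_un (le_gen (hb (π (C.ι z))) ((sp z).map π.continuous)) hG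
  have hd' : C'.IsDeg D (m * M) _ := ⟨_, fun z => S.rs (C.ι ≫ π)
      (a (π (C.ι z)) / (a (π (C.ι (genericPoint C.C))) * v)), hG, fun z _ =>
    let ⟨α, hα⟩ := (u1 z).2.1
    ⟨_, α, hb _, hα, res (C.ι ≫ π) α hα⟩, rfl⟩
  have k := hn C' (fun z => by
    rw [← ht z]
    exact congrArg (fun k => k (C.ι z)) h.pb.w) _ _ hd'
  refine le_of_mul_le_mul_left (a := (M : ℤ)) ?_ (by exact_mod_cast M0)
  rw [mul_zero, en, mul_finsum]
  refine k.trans_eq (finsum_congr fun z => ?_)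
  obtain ⟨b, α, h1, h2, h3⟩ := hw z.1 z.2
  rw [← h3, res C.ι α h2]
  exact key h.ep.pe C.ι hg.1 (pow_ne_zero _ hl.1) (hb _).1 (hb _).1 (le_un (le_gen h1 (sp z)) hg)
    u0 (le_un (pw h1) (up _)) (u1 z) uv rv

end N61

open N61 in
/-- **NFU** -/
theorem nfu61 : NFU := by
  intro X Z Y W f e g π ι h q D D' j w q0 hl hD hq hn
  refine (at_sc q0).1 (at_up h (D := fun E => q * D E) ⟨hl.1, fun E F k => hl.2 E F trivial k⟩
    (hD.subset fun F a => right_ne_zero_of_mul a) (fun x => ?_) ((at_sc q0).2 hn))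
  obtain ⟨m, a, m0, l⟩ := hq x
  exact ⟨m, _, m0, le_sc.2 (le_pow l q)⟩

end Vale.Agent.P283R.Zz
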