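import Vale.Agent.P283R.Zz.St

/-!
# P283R, block ZZ: the new boundary is anti-nef (row `NFXR`)
-/

open Set CategoryTheory AlgebraicGeometry

noncomputable section

namespace Vale.Agent.P283R.Zz

open Vale.Agent.P289 (Pt St toRat val DForm dimension)
open Vale.Agent.P287D Vale.Agent.P283M Vale.Agent.P283M.Stm Vale.Agent.P283M.Stm.Var
open Vale.Agent.P283M.Br (plc ffd frm pl_of)
open Vale.Agent.P283R.Eb (Ep Bc Lin ForP ForB)
open Vale.Agent.P297Z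

theorem lq88 {X Y : Var} {π : Y.X ⟶ X.X} {ι : X.K →+* Y.K} (h : Ep π ι) {d q : ℕ}
    {ω : DForm ℂ X.K d} {ω' : DForm ℂ Y.K d} {B : Y.QDiv} {B₂ : X.QDiv} {D : X.PrimeDiv → ℤ}
    {φ : Y.K} {g₀ : X.K} {O : Y.X.Opens} (hd : dimension X.str = d) (h0 : ω.Nonzero)
    (h1 : ω'.Nonzero) (g0 : g₀ ≠ 0) (hB : ∀ E, q * B₂ E = D E + ord g₀ E)
    (r : Rel π O q B D φ) : ∃ j, Lq π O q (-logCan ω' B) (-logCan ω B₂) j := by
  obtain ⟨J, hJ⟩ := Eb.can_of Eb.dim Eb.div X Y π ι h d ω ω' hd h0 h1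
  obtain ⟨J0, l⟩ := hJ 0 0 fun _ _ _ => rfl
  have i0 := (map_ne_zero ι).2 g0
  have n0 := mul_ne_zero (pow_ne_zero q J0) r.1
  refine ⟨ι g₀ / (J ^ q * φ), div_ne_zero i0 n0, fun E F hE e => ?_⟩
  obtain ⟨F', e', o'⟩ := Eb.div X Y π ι h E
  obtain rfl : F' = F := Subtype.ext (e'.symm.trans e)
  have t1 := l E F' e
  have t2 := r.2 E F' hE e
  have t3 := hB F'
  have t4 : ord (ι g₀ / (J ^ q * φ)) E = ord g₀ F' - (q * ord J E + ord φ E) := by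
    rw [← o']
    obtain ⟨P, -, o⟩ := pl_of plc E
    rw [o, o, o, o, Pl.ord_div _ i0 n0, Pl.ord_mul _ (pow_ne_zero q J0) r.1, Pl.ord_pow]
  simp only [logCan, Finsupp.zero_apply, add_zero] at t1
  simp only [Pi.neg_apply, logCan]
  rw [t4, t1]
  push_cast
  linear_combination t3 - t2

/-- **NFXR** -/
theorem nfxr88 : NFXR := by
  intro nfd nfu X Z Y W f e g π ι h d q ω ω' B B₂ D φ g₀ V w hw hd q0 hX h0 h1 g0 hB r lc att nf
  have := h.et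
  obtain ⟨j, hj⟩ := lq88 h.ep hX h0 h1 g0 hB r
  have dn : ∀ v ∈ V, NefAt f (-logCan ω B₂) (Pt.map e v) := fun v hv =>
    nfd X Z Y W f e g π ι h V q _ _ j v hv q0 hj fun C hC => nf C ⟨v, hC⟩
  obtain ⟨n, rfl⟩ := Nat.exists_eq_add_of_le' hd
  have hK := ffd X _ hX
  obtain ⟨s, -, fr⟩ := frm X _ hK ω h0
  have fs : {F | (-logCan ω B₂) F ≠ 0}.Finite := by
    refine ((P283R.Br.form_fin hK fr).union B₂.support.finite_toSet).subset fun F a => ?_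
    by_contra k
    rw [mem_union, not_or, mem_ofPred, not_not, Finset.mem_coe, Finsupp.notMem_support_iff] at k
    exact a (by simp [logCan, k.1, k.2])
  have lc' : ∀ x, ∃ m a, 0 < m ∧ LocalEq (-logCan ω B₂) m a x := fun x => by
    obtain ⟨m, a, m0, ha⟩ := lc x
    refine ⟨m, a⁻¹, m0, inv_ne_zero ha.1, fun E hE => ?_⟩
    obtain ⟨P, -, o⟩ := pl_of plc E
    have := ha.2 E hE
    rw [o] at this ⊢
    rw [Pl.ord_inv, Int.cast_neg, this, Pi.neg_apply, mul_neg]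
  rintro C ⟨t, ht⟩
  obtain ⟨σ, τ, ι', j', b, ⟨v, hv, ev⟩, l⟩ :=
    att ⟨e '' V, e.isOpenMap _ V.isOpen⟩ t ⟨w, hw, rfl⟩
  have r' : Rel σ ⊤ q B₂ D (j' * g₀) := ⟨mul_ne_zero l.1 g0, fun E F _ a => by
    rw [hB, show (D E : ℚ) = D F + ord j' E from l.2 E F a, Eb.ord_mul' l.1 g0]
    push_cast
    ring⟩
  obtain ⟨j₂, hj₂⟩ := lq88 b.ep hX h0 h0 g0 hB r'
  exact nfu X Z X Z f τ f σ ι' b q _ _ j₂ t q0 hj₂ fs lc' (ev ▸ dn v hv) C ht

end Vale.Agent.P283R.Zz
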