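import Vale.Agent.P283R.Un.Sch
import Vale.Agent.P283R.Lx.Fim40
import Vale.Agent.P283R.Sf.Spa27
import Vale.Agent.P283R.Eb.Dscr
import Vale.Agent.P283R.Eb.Sec
import Vale.Agent.P283R.Az.Res

/-!
# P283R, block ZZ: finite modules of sections; a complement from sections at every place
-/

set_option linter.all false

open Set CategoryTheory AlgebraicGeometry
open Vale.Agent.P289 Vale.Agent.P289.H219 Vale.Agent.P270L Vale.Agent.P283M.Am Vale.Agent.P299.G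

noncomputable section

namespace Vale.Agent.P283R.Zz.F47

open Vale.Agent.P287D Vale.Agent.P283M Vale.Agent.P283M.Br Vale.Agent.P283M.Stm.Var
open Vale.Agent.P283M.Stm (Contraction Pair HasKltComplement FanoType)
open Vale.Agent.P297Z Vale.Agent.P283R.Br Vale.Agent.P283R.Eb Vale.Agent.P283R.Eb.Ds

theorem gg_sp {K : Type} [Field K] [Algebra ℂ K] {k N : ℕ} {A : (Fin k → ℤ) → Set K}
    (h : Sl.GradedGen N A) (A0 : ∀ m, 0 ∈ A m) :
    ∃ (s : Fin N → K) (a : Fin N → Fin k → ℤ), ∀ e x, x ∈ A e ↔ x ∈ Cx.Sp s a e := by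
  classical
  obtain ⟨s, a, π, hπ, h⟩ := h
  have e : π.range = Algebra.adjoin ℂ (range fun j => Sg.sg (a j) (s j)) := by
    rw [Algebra.adjoin_range_eq_range_aeval]
    congr 1
    exact MvPolynomial.algHom_ext fun j => by rw [MvPolynomial.aeval_X]; exact hπ j
  refine ⟨s, a, fun m x => ?_⟩
  rw [← Sf.spa27, ← e]
  refine ⟨fun hx => (h _).2 fun m' => ?_, fun hx => ?_⟩
  · rw [AddMonoidAlgebra.coeff_single, Finsupp.single_apply]
    split_ifs with z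
    exacts [z ▸ hx, A0 _]
  · have := (h _).1 hx m
    rwa [AddMonoidAlgebra.coeff_single, Finsupp.single_eq_same] at this

variable {X Z : Stm.Var} {n : ℕ} {f : X.X ⟶ Z.X} {z : Pt Z.X} {V : Z.X.Opens}
  {ω : DForm ℂ X.K (n + 1)}

/-- the sections of a Weil divisor are a finite module over the functions of the base -/
theorem fgs (hdim : dimension X.str = (n + 1 : ℕ)) (hω : ω.Nonzero) (hf : Contraction f)
    (hF : FanoType f ω) (hz : IsClosed ({z} : Set (Pt Z.X))) (hV : IsAffineOpen V) (zV : z ∈ V)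
    (c : X.PrimeDiv → ℤ) (fc : {y | c y ≠ 0}.Finite) : ∃ (k : ℕ) (ψ : Fin k → X.K),
      (∀ l, ψ l ≠ 0 → ∀ y : X.PrimeDiv, y.1 ∈ f ⁻¹ᵁ V → c y ≤ ord (ψ l) y) ∧
      ∀ φ : X.K, (φ ≠ 0 → ∀ y : X.PrimeDiv, y.1 ∈ f ⁻¹ᵁ V → c y ≤ ord φ y) →
        ∃ b : Fin k → X.K, (∀ l, ∀ x ∈ f ⁻¹ᵁ V, RegAt (b l) x) ∧ φ = ∑ l, b l * ψ l := by
  obtain ⟨N, h⟩ := Un.sch hdim hω hf hF hz hV zV
    (fun _ : Fin 1 => Finsupp.ofSupportFinite c fc)
  obtain ⟨s, a, h⟩ := gg_sp h fun m k => (k rfl).elim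
  obtain ⟨k, ψ, h1, h2⟩ := Lx.fim40 X.K 1 N s a (-1)
  have e : ∀ (φ : X.K) (y : X.PrimeDiv), 0 ≤ ord φ y + ∑ i : Fin 1,
      (-1 : Fin 1 → ℤ) i * Finsupp.ofSupportFinite c fc y ↔ c y ≤ ord φ y := fun φ y => by
    rw [Fin.sum_univ_one]
    change 0 ≤ ord φ y + -1 * c y ↔ _
    omega
  refine ⟨k, ψ, fun l l0 y hy => (e _ y).1 ((h _ _).2 (h1 l) l0 y hy), fun φ hφ => ?_⟩
  obtain ⟨b, b1, b2⟩ := h2 φ ((h _ _).1 fun p y hy => (e φ y).2 (hφ p y hy))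
  refine ⟨b, fun l x hx => ?_, b2⟩
  by_cases b0 : b l = 0
  · rw [b0]
    exact (lr x).zero_mem
  exact har X _ x fun E hE => by
    simpa using (h _ _).2 (b1 l) b0 E (hE.mem_open (f ⁻¹ᵁ V).isOpen hx)

/-- a section near the fibre extends after a multiplication by a unit along the fibre -/
theorem ext (hf : Contraction f) (hV : IsAffineOpen V) (zV : z ∈ V) {U : Z.X.Opens} (zU : z ∈ U)
    {c : X.PrimeDiv → ℤ} (fc : {y | c y ≠ 0}.Finite) {ψ : X.K} (ψ0 : ψ ≠ 0)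
    (h : ∀ E : X.PrimeDiv, E.1 ∈ f ⁻¹ᵁ U → c E ≤ ord ψ E) : ∃ a : X.K, a ≠ 0 ∧
      (∀ x ∈ f ⁻¹ᵁ V, RegAt a x) ∧ (∀ x : Pt X.X, x.map f = z → ∀ Q : Pl X.K,
        (∀ g, RegAt g x → g ∈ Q.ring) → Q.ord a = 0) ∧
      ∃ M : ℕ, ∀ E : X.PrimeDiv, E.1 ∈ f ⁻¹ᵁ V → c E ≤ ord (a ^ M * ψ) E := by
  obtain ⟨x₀, rfl⟩ := hf.2.2.1.surj z
  have : Nonempty ↑(f ⁻¹ᵁ V) := ⟨⟨x₀, zV⟩⟩
  obtain ⟨t, le, zt⟩ := hV.exists_basicOpen_le ⟨_, zU⟩ zV
  have un : ∀ x : Pt X.X, f x = f x₀ → UnAt (pl f V t : X.K) x := fun x hx =>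
    (un_pl (show f x ∈ V from hx ▸ zV) t).2 (hx ▸ zt)
  have t0 := (un x₀ rfl).1
  have fs : {E : X.PrimeDiv | c E - ord ψ E ≠ 0}.Finite := (fc.union (fin X ψ)).subset fun E a =>
    by_contra fun k => a (by
      rw [mem_union, not_or, mem_setOf, mem_setOf, not_not, not_not] at k
      rw [k.1, k.2, sub_zero])
  obtain ⟨M, hM⟩ := (fs.image fun E => (c E - ord ψ E).toNat).bddAbove
  refine ⟨pl f V t, t0, mem_reg.1 (pl_reg f V t), fun x hx Q q => ?_, M, fun E hE => ?_⟩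
  · have a := Pl.ord_nonneg_of_mem _ (q _ (un x hx).2.1)
    have b := Pl.ord_nonneg_of_mem _ (q _ (un x hx).2.2)
    rw [Pl.ord_inv] at b
    omega
  obtain ⟨P, e, o⟩ := pl_of plc E
  have rg : RegAt (pl f V t : X.K) E.1 := mem_reg.1 (pl_reg f V t) _ hE
  have r0 := Pl.ord_nonneg_of_mem _ ((e _).2 rg)
  rw [o, Pl.ord_mul _ (pow_ne_zero _ t0) ψ0, Pl.ord_pow, ← o ψ]
  by_cases u : E.1 ∈ f ⁻¹ᵁ U
  · have := h E u
    exact this.trans (le_add_of_nonneg_left (mul_nonneg (Int.natCast_nonneg M) r0))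
  have r1 : 1 ≤ P.ord (pl f V t : X.K) := by_contra fun k => u (le ((un_pl hE t).1 ⟨t0, rg,
    (e _).1 ((Pl.ord_nonneg_iff _ (inv_ne_zero t0)).1 (by rw [Pl.ord_inv]; omega))⟩))
  have r2 : c E - ord ψ E ≤ M := by
    by_cases k : c E - ord ψ E = 0
    · omega
    · have : (c E - ord ψ E).toNat ≤ M := hM ⟨E, k, rfl⟩
      omega
  have := mul_le_mul_of_nonneg_left r1 (Int.natCast_nonneg M)
  omega

/-- a prime divisor meets the fibre -/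
theorem exd (hK : FF X.K (n + 1)) (hf : Contraction f) (hz : IsClosed ({z} : Set (Pt Z.X))) :
    ∃ (x : Pt X.X) (E : X.PrimeDiv), x.map f = z ∧ E.1 ⤳ x := by
  obtain ⟨x, rfl⟩ := hf.2.2.1.surj z
  by_contra k
  have r : ∀ g, RegAt g x := fun g => har X g x fun E c => (k ⟨x, E, rfl, c⟩).elim
  have e : x = genericPoint X.X := Crv.dom_unique (W := ⊤) (dom_S fun g _ => ⟨trivial, fun _ _ =>
    r _⟩) (dom_S fun g _ => ⟨trivial, fun _ _ => reg_gen (genericPoint_specializes x) (r _)⟩)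
  obtain ⟨E⟩ := Az.exists_prime hK
  exact k ⟨E.1, E, ((e ▸ genericPoint_specializes E.1 : x ⤳ E.1).map f.continuous).mem_closed hz
    rfl, specializes_rfl⟩

/-- **a complement from sections at every place** -/
theorem plw {N : ℕ} {B : X.QDiv} {h : X.K} (hdim : dimension X.str = (n + 1 : ℕ))
    (hω : ω.Nonzero) (hf : Contraction f) (hF : FanoType f ω)
    (hz : IsClosed ({z} : Set (Pt Z.X))) (hB : ∀ E, 0 ≤ B E) (hN : 2 ≤ N) (h0 : h ≠ 0)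
    (fr : P283M.Br.Frm ω h) (H : ∀ (Q : Pl X.K) (x : Pt X.X), x.map f = z →
      (∀ g, RegAt g x → g ∈ Q.ring) → ∃ (U : Z.X.Opens) (ψ : X.K), z ∈ U ∧ ψ ≠ 0 ∧
        (∀ E : X.PrimeDiv, E.1 ∈ f ⁻¹ᵁ U → N * logCan ω B E ≤ ord ψ E) ∧
        (Q.ord ψ : ℝ) < N * (1 + cn X.K (n + 1) Q + Q.ord h)) : HasKltComplement f ω B N z := by
  have hK := ffd X _ hdim
  obtain ⟨y, D, hy, e⟩ := Cb.exists_cn hK
  obtain ⟨_, ⟨V, hV, rfl⟩, zV, -⟩ :=
    Z.X.isBasis_affineOpens.exists_subset_of_mem_open (Set.mem_univ z) isOpen_univ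
  obtain ⟨A, χ, bs⟩ := exists_bz hf hV zV hz
  have fc : {E : X.PrimeDiv | ⌈(N : ℚ) * logCan ω B E⌉ ≠ 0}.Finite :=
    ((form_fin hK fr).union B.support.finite_toSet).subset fun E hE => by_contra fun k => hE (by
      rw [mem_union, not_or, mem_setOf, not_not, Finset.mem_coe, Finsupp.notMem_support_iff] at k
      simp [logCan, k.1, k.2])
  obtain ⟨k, ψ, h1, h2⟩ := fgs hdim hω hf hF hz hV zV _ fc
  have hh := pow_ne_zero N h0
  have N0 : (0 : ℝ) < N := Nat.cast_pos.2 (by omega)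
  have key : ∀ (Q : Pl X.K) (x : Pt X.X), x.map f = z → (∀ g, RegAt g x → g ∈ Q.ring) →
      ∃ l, ψ l / h ^ N ≠ 0 ∧ 0 < ld y N (ψ l / h ^ N) Q := fun Q x hx q => by
    obtain ⟨U, φ, zU, φ0, p1, p2⟩ := H Q x hx q
    obtain ⟨a, a0, -, a1, M, a2⟩ := ext hf hV zV zU fc φ0 fun E hE => Int.ceil_le.2 (p1 E hE)
    obtain ⟨b, b1, b2⟩ := h2 _ fun _ => a2
    have s : ∑ l, ψ l * b l = a ^ M * φ := by simp only [b2, mul_comm]
    obtain ⟨j, j0, j1⟩ := Et.exists_le (P := Q) (c := ψ)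
      (fun j => q _ (b1 j x (show Pt.map f x ∈ V from hx ▸ zV)))
      (s ▸ mul_ne_zero (pow_ne_zero _ a0) φ0)
    rw [s, Pl.ord_mul _ (pow_ne_zero _ a0) φ0, Pl.ord_pow, a1 x hx Q q, mul_zero, zero_add,
      ← Int.cast_le (R := ℝ)] at j1
    refine ⟨j, div_ne_zero j0 hh, ?_⟩
    rw [ld, Pl.ord_div _ j0 hh, Pl.ord_pow, ← e, sub_pos, div_lt_iff₀ N0]
    push_cast
    linarith
  refine down hK fr h0 hB ⟨D, hy⟩ e zV bs hN (fun l => ψ l / h ^ N) ?_ (fun l l0 E hE => ?_)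
    fun P p => let ⟨x, c1, c2⟩ := bs.fib hf p; key P x c1 c2
  · obtain ⟨x, E, hx, s⟩ := exd hK hf hz
    obtain ⟨P, i, -⟩ := pl_of plc E
    exact (key P x hx fun g a => (i g).2 (reg_gen s a)).imp fun _ a => a.1
  · have j0 : ψ l ≠ 0 := left_ne_zero_of_mul l0
    have := Int.ceil_le.1 (h1 l j0 E hE)
    obtain ⟨P, -, o⟩ := pl_of plc E
    rw [o, o, Pl.ord_div _ j0 hh, Pl.ord_pow]
    rw [o, logCan] at this
    push_cast
    linarith

end Vale.Agent.P283R.Zz.F47
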