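import Vale.Agent.P283R.Zz.St
import Vale.Agent.P283R.Br.Idn

/-!
# P283R, block ZZ: local equations descend along étale maps
-/

open Set CategoryTheory AlgebraicGeometry

noncomputable section

namespace Vale.Agent.P283R.Zz

open Vale.Agent.P289 (Pt)
open Vale.Agent.P283M Vale.Agent.P283M.Stm Vale.Agent.P283M.Stm.Var Vale.Agent.P283M.Br
open Vale.Agent.P283R.Eb Vale.Agent.P283R.Eb.Amp

namespace Q9

theorem half {X Y : Var} {π : Y.X ⟶ X.X} {ι : X.K →+* Y.K} (h : Ep π ι) {y : Pt Y.X}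
    {G : X.PrimeDiv → ℚ} (fG : {F | G F ≠ 0}.Finite) {φ : Y.K} (φ0 : φ ≠ 0)
    (e : ∀ (E : Y.PrimeDiv) (F : X.PrimeDiv), E.1 ⤳ y → E.1.map π = F.1 → (ord φ E : ℚ) = G F) :
    ∃ ψ : X.K, ψ ≠ 0 ∧ (∀ F : X.PrimeDiv, F.1 ⤳ y.map π → G F ≤ ord ψ F) ∧
      UnAt (ι ψ / φ) y := by
  have dv := Eb.div X Y π ι h
  obtain ⟨C, hC⟩ := exists_same Eb.div h (Finsupp.ofSupportFinite G fG)
  have fT : {E : Y.PrimeDiv | ¬ E.1 ⤳ y ∧ (ord φ E ≠ 0 ∨ C E ≠ 0)}.Finite :=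
    ((Br.fin Y φ).union C.support.finite_toSet).subset fun E a =>
      a.2.imp id fun b => Finsupp.mem_support_iff.2 b
  obtain ⟨_, ⟨V, hV, rfl⟩, yV, -⟩ :=
    X.X.isBasis_affineOpens.exists_subset_of_mem_open (Set.mem_univ (π y)) isOpen_univ
  obtain ⟨_, ⟨U, hU, rfl⟩, yU, le⟩ := Y.X.isBasis_affineOpens.exists_subset_of_mem_open
    (Se.mem_off.2 ⟨yV, fun E a => a.1⟩ : y ∈ Se.off (π ⁻¹ᵁ V) fT) (Se.off _ fT).isOpen
  have cl : ∀ (E : Y.PrimeDiv) (F : X.PrimeDiv), E.1 ⤳ y → E.1.map π = F.1 → ⌈G F⌉ = ord φ E :=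
    fun E F a b => by rw [← e E F a b, Int.ceil_intCast]
  obtain ⟨k, ψ, b, e1, r, o⟩ := sec_of Eb.div X X Y Y (𝟙 _) π (𝟙 _) π ι
    ⟨Br.ctr_id, h.et, h.ov, IsPullback.of_vert_isIso ⟨by simp⟩, h⟩ V U (fun F => ⌈G F⌉) φ hV hU
    (fun x a => (Se.mem_off.1 (le a)).1) ⟨y, yU⟩
    (fG.subset fun F a b => a (by simp [b])) φ0 fun E F a b => by
      by_cases c : E.1 ⤳ y
      · exact (cl E F c b).le
      · have n := (Se.mem_off.1 (le a)).2 E
        have z : ord φ E = 0 ∧ C E = 0 := by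
          by_contra q
          exact n ⟨c, not_and_or.1 q⟩ specializes_rfl
        have g : G F = 0 := (hC E F b).symm.trans z.2
        simp [z.1, g]
  have rg : ∀ l, RegAt (ι (ψ l) / φ) y := fun l => by
    by_cases c : ψ l = 0
    · rw [c, map_zero, zero_div]
      exact (lr y).zero_mem
    refine reg_o fun E hE => ?_
    obtain ⟨F, e2, e3⟩ := dv E
    have k := o l c F ((e2 ▸ hE.map π.continuous : F.1 ⤳ y.map π).mem_open V.isOpen yV)
    rw [cl E F hE e2] at k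
    rw [div_eq_mul_inv, o_mul ((map_ne_zero ι).2 c) (inv_ne_zero φ0), o_inv φ0, e3,
      ← sub_eq_add_neg, sub_nonneg]
    exact_mod_cast k
  obtain ⟨l, -, u⟩ := P270L.S.exists_un_of_sum (p := y) Finset.univ
    (f := fun l => ι (ψ l) / φ * b l) (fun l => reg_mul (rg l) (r l y yU)) (by
      simp only [div_mul_eq_mul_div]
      rw [← Finset.sum_div, ← e1, div_self φ0]
      exact unAt_one)
  have u0 : ι (ψ l) / φ ≠ 0 := left_ne_zero_of_mul u.1
  have p0 : ψ l ≠ 0 := (map_ne_zero ι).1 (div_ne_zero_iff.1 u0).1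
  refine ⟨ψ l, p0, fun F a => (Int.le_ceil _).trans ?_, u0, rg l, ?_⟩
  · exact_mod_cast o l p0 F (a.mem_open V.isOpen yV)
  · have := reg_mul (r l y yU) u.2.2
    rwa [mul_inv, mul_left_comm, mul_inv_cancel₀ (right_ne_zero_of_mul u.1), mul_one] at this

end Q9

theorem qcd9 : QCD := by
  intro X Y π ι h O D' D j a m y hy fD ⟨j0, hj⟩ ⟨a0, ha⟩
  have φ0 : a / j ^ m ≠ 0 := div_ne_zero a0 (pow_ne_zero _ j0)
  have e : ∀ (E : Y.PrimeDiv) (F : X.PrimeDiv), E.1 ⤳ y → E.1.map π = F.1 →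
      (ord (a / j ^ m) E : ℚ) = m * D F := fun E F s b => by
    have k := hj E F (s.mem_open O.isOpen hy) b
    rw [Nat.cast_one, one_mul, one_mul] at k
    rw [div_eq_mul_inv, o_mul a0 (inv_ne_zero (pow_ne_zero _ j0)), o_inv (pow_ne_zero _ j0),
      o_pow j0, ha E s, k]
    ring
  obtain ⟨ψ, p0, l, u⟩ := Q9.half h (G := fun F => m * D F)
    (fD.subset fun F a => right_ne_zero_of_mul a) φ0 e
  obtain ⟨χ, q0, l', u'⟩ := Q9.half h (G := fun F => -(m * D F))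
    (fD.subset fun F a => right_ne_zero_of_mul (neg_ne_zero.1 a)) (inv_ne_zero φ0)
    fun E F s b => by rw [o_inv φ0, e E F s b]
  have v := u.mul u'
  rw [div_inv_eq_mul, mul_comm (ι χ), ← mul_assoc, div_mul_cancel₀ _ φ0, ← map_mul] at v
  have w := (h.pe.un (reg_o fun F s => by
    rw [o_mul p0 q0]
    linarith [l F s, l' F s])).1 v
  refine ⟨ψ, p0, fun F s => ?_⟩
  have k := o_un w s
  rw [o_mul p0 q0] at k
  linarith [l F s, l' F s]

end Vale.Agent.P283R.Zz
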