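import Vale.Agent.P283R.Zz.St

/-!
# P283R, block ZZ: the system near the fibre
-/

set_option linter.all false

open Set CategoryTheory AlgebraicGeometry
open Vale.Agent.P289 (Pt)

noncomputable section

namespace Vale.Agent.P283R.Zz

open Vale.Agent.P287D Vale.Agent.P283M Vale.Agent.P283M.Br Vale.Agent.P283M.Stm.Var
open Vale.Agent.P297Z Vale.Agent.P283R.Br Vale.Agent.P283R.Eb Vale.Agent.P283R.Eb.Se

namespace S47

theorem mem_div {K : Type} [Field K] [Algebra ℂ K] (P : Pl K) {φ a : K} (φ0 : φ ≠ 0) :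
    a / φ ∈ P.ring ↔ (a ≠ 0 → P.ord φ ≤ P.ord a) := by
  by_cases a0 : a = 0
  · simp [a0]
  rw [← Pl.ord_nonneg_iff _ (div_ne_zero a0 φ0), Pl.ord_div _ a0 φ0, sub_nonneg]
  exact ⟨fun h _ => h, fun h => h a0⟩

variable {X Y : Stm.Var} {D : X.PrimeDiv → ℤ}

theorem sc_mul {a ψ : X.K} (ha : Rg a) (h : Sc D ψ) : Sc D (a * ψ) := fun z E => by
  have := reg_ord (ha E.1)
  have := h (right_ne_zero_of_mul z) E
  rw [ordm (left_ne_zero_of_mul z) (right_ne_zero_of_mul z)]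
  omega

theorem sc_sum {k : ℕ} {a ψ : Fin k → X.K} (ha : ∀ l, Rg (a l)) (h : ∀ l, Sc D (ψ l)) :
    Sc D (∑ l, ψ l * a l) := fun z E => by
  obtain ⟨P, i, o⟩ := pl_of plc E
  obtain ⟨j, j0, j1⟩ := Et.exists_le (P := P) (fun j => (i _).2 (ha j E.1)) z
  have := h j j0 E
  rw [o] at this ⊢
  omega

theorem cb_of {I : Type} [Fintype I] {ι : X.K →+* Y.K} {O : Y.X.Opens} {u : Set X.K}
    (ψ : I → X.K) (c : I → Y.K) (h1 : ∀ l, ψ l ∈ u) (h2 : ∀ l, ∀ y ∈ O, RegAt (c l) y) :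
    Cb ι O u (∑ l, ι (ψ l) * c l) :=
  ⟨_, ψ ∘ (Fintype.equivFin I).symm, c ∘ (Fintype.equivFin I).symm, fun _ => h1 _, fun _ => h2 _,
    ((Fintype.equivFin I).symm.sum_comp fun l => ι (ψ l) * c l).symm⟩

end S47

open S47

/-- **SYSR** -/
theorem sysr47 : SYSR := by
  intro apx X Z Y W f e g π ι bc V w D φ M E hZ hw wV φ0 ⟨k, ψ, c, h1, h2, h3⟩ hE
  classical
  obtain ⟨⟨Q, i⟩, o⟩ := plc Y M.Y M.pull (mdc Y M).1 E
  replace o := o Q i
  have dm := (mdc Y M).2 E Q i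
  generalize Pt.map M.π E.1 = y at hE dm
  obtain ⟨N, hN⟩ := (finite_range fun l => (Q.ord φ - Q.ord (ι (ψ l))).toNat).bddAbove
  choose a U wU ra n x b x1 b1 eq using fun l =>
    apx X Z Y W f e g π ι bc V w N (c l) hZ hw wV (h2 l)
  have fy : (y.map π).map f = w.map e := by
    change (π ≫ f) y = _
    rw [bc.pb.w, ← hE]
    rfl
  have vz : ∀ v, Vz f (w.map e) v → v ≠ 0 → 1 ≤ Q.ord (ι v) := fun v h v0 => by
    have i0 := (map_ne_zero ι).2 v0
    have r := bc.ep.pe.reg (y := y) (h.1 _)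
    have := Pl.ord_nonneg_of_mem _ (dm _ r).1
    by_contra z
    exact h.2 v0 _ fy ((bc.ep.pe.un (h.1 _)).1 ⟨i0, r, (dm _ r).2 i0
      ((Pl.ord_nonneg_iff _ (inv_ne_zero i0)).1 (by rw [Pl.ord_inv]; omega))⟩).2.2
  have pw : ∀ v, Pw f (w.map e) N v → Rg v ∧ (v ≠ 0 → (N : ℤ) ≤ Q.ord (ι v)) := by
    rintro _ ⟨l, h, rfl⟩
    refine ⟨fun p => (lr p).prod_mem fun j _ => (h j).1 p, fun z => ?_⟩
    have l0 := Finset.prod_ne_zero_iff.1 z
    rw [map_prod, Q.ord_prod _ fun j s => (map_ne_zero ι).2 (l0 j s)]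
    simpa using Finset.sum_le_sum fun j s => vz _ (h j) (l0 j s)
  have t1 : ∀ l j, ι (x l j * ψ l) / φ ∈ Q.ring := fun l j => (mem_div Q φ0).2 fun z => by
    rw [map_mul] at z ⊢
    have p := (pw _ (x1 l j)).2 ((map_ne_zero ι).1 (left_ne_zero_of_mul z))
    have : (Q.ord φ - Q.ord (ι (ψ l))).toNat ≤ N := hN ⟨l, rfl⟩
    rw [Pl.ord_mul _ (left_ne_zero_of_mul z) (right_ne_zero_of_mul z)]
    omega
  have e1 : φ = ι (∑ l, ψ l * a l) * 1 + ∑ l, ∑ j, ι (x l j * ψ l) * b l j := by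
    rw [h3, mul_one, map_sum, ← Finset.sum_add_distrib]
    refine Finset.sum_congr rfl fun l _ => ?_
    rw [← sub_add_cancel (c l) (ι (a l)), eq l, mul_add, add_comm, map_mul, Finset.mul_sum]
    congr 1
    exact Finset.sum_congr rfl fun j _ => by rw [map_mul]; ring
  have t2 : ι (∑ l, ψ l * a l) / φ ∈ Q.ring := by
    have : ι (∑ l, ψ l * a l) / φ = 1 - ∑ l, ∑ j, ι (x l j * ψ l) / φ * b l j := by
      simp only [div_mul_eq_mul_div, ← Finset.sum_div]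
      rw [eq_sub_iff_add_eq, ← add_div, div_eq_one_iff_eq φ0]
      exact (e1.trans (by rw [mul_one])).symm
    rw [this]
    exact sub_mem (one_mem _) (sum_mem fun l _ => sum_mem fun j _ => mul_mem (t1 l j)
      (dm _ (b1 l j y (show y.map g ∈ U l from hE ▸ wU l))).1)
  let p : Option (Σ l, Fin (n l)) → X.K := fun r =>
    r.elim (∑ l, ψ l * a l) fun r => x r.1 r.2 * ψ r.1
  refine ⟨Finset.univ.image p, ⟨V ∩ ⋂ l, U l, V.isOpen.inter
    (isOpen_iInter_of_finite fun l => (U l).isOpen)⟩, ⟨wV, mem_iInter.2 wU⟩, fun _ h => h.1,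
    fun χ h => ?_, ?_⟩
  · obtain ⟨r, -, rfl⟩ := Finset.mem_image.1 h
    rw [o, o]
    rcases r with _ | ⟨l, j⟩
    · exact ⟨sc_sum ra h1, fun z => (mem_div Q φ0).1 t2 ((map_ne_zero ι).2 z)⟩
    · exact ⟨sc_mul (pw _ (x1 l j)).1 (h1 l),
        fun z => (mem_div Q φ0).1 (t1 l j) ((map_ne_zero ι).2 z)⟩
  · have := cb_of (ι := ι) (u := (Finset.univ.image p : Finset X.K))
      (O := g ⁻¹ᵁ ⟨V ∩ ⋂ l, U l, V.isOpen.inter (isOpen_iInter_of_finite fun l => (U l).isOpen)⟩)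
      p (fun r => r.elim 1 fun r => b r.1 r.2) (fun r => by simp) fun r y' h => by
        rcases r with _ | ⟨l, j⟩
        exacts [(lr y').one_mem, b1 l j y' (mem_iInter.1 h.2 l)]
    rw [Fintype.sum_option, Fintype.sum_sigma] at this
    exact e1 ▸ this

end Vale.Agent.P283R.Zz
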