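import Vale.Agent.P283R.Zz.St

/-!
# P283R, block ZZ: systems pull back (row `UPG`)
-/

open Set CategoryTheory AlgebraicGeometry

noncomputable section

namespace Vale.Agent.P283R.Zz

open Vale.Agent.P289 (Pt St toRat val DForm dimension)
open Vale.Agent.P287D Vale.Agent.P283M Vale.Agent.P283M.Stm Vale.Agent.P283M.Stm.Var
open Vale.Agent.P283M.Br Vale.Agent.P283R.Br Vale.Agent.P297Z
open Vale.Agent.P283R.Et (Pe Rat exists_rat)
open Vale.Agent.P283R.Eb (Lin ord_mul' ord_pow' lin_of)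

/-- **UPG** -/
theorem upg64 : UPG := by
  intro X Y π ι h d q ε ω ω' D D' j u y _ q0 ε0 hd h0 h0' lj ⟨⟨m, a, m0, ha⟩, hG⟩
  let _ := ι.toAlgebra
  have := h.tower
  have hK := ffd X _ hd
  have hK' := ffd Y _ (Eb.dim X Y π ι h d hd)
  obtain ⟨s, s0, fr⟩ := frm X _ hK ω h0
  obtain ⟨s', s0', fr'⟩ := frm Y _ hK' ω' h0'
  obtain ⟨J, hJ⟩ := exists_rat hK hK'
  have l := lin_of Eb.div h hK hK' s0 s0' fr fr' hJ (B := 0) (B' := 0) fun _ _ _ => rfl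
  have L : Lin π (kd ω' q D') (kd ω q D) ((J * s' / ι s) ^ q * j) :=
    ⟨mul_ne_zero (pow_ne_zero _ l.1) lj.1, fun E F e => by
      have a1 := l.2 E F e
      have a2 : (D' E : ℚ) = D F + ord j E := lj.2 E F e
      simp only [logCan, Finsupp.coe_zero, Pi.zero_apply, add_zero] at a1
      rw [kd, kd, ord_mul' (pow_ne_zero _ l.1) lj.1, ord_pow', a1, a2]
      push_cast
      ring⟩
  have lq := L.loc Eb.div h ha
  refine ⟨⟨m, _, m0, lq⟩, fun M E ey m' a' m0' ha' => ?_⟩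
  subst ey
  obtain ⟨⟨Q, i'⟩, o⟩ := plc Y M.Y M.pull (mdc Y M).1 E
  have dq := (mdc Y M).2 E Q i'
  obtain ⟨P, lp⟩ := Pb.down hK hK' Q
  have dp := h.dom lp dq
  obtain ⟨M₀, E₀, e₀, i⟩ := mod X P _ dp
  have o₀ := (plc X M₀.Y M₀.pull (mdc X M₀).1 E₀).2 P i
  obtain ⟨ψ, hψ, ψ0, b⟩ := hG M₀ E₀ e₀ m a m0 ha
  rw [fr _ _ E₀ P i o₀, o₀, o₀] at b
  have p0 := (map_ne_zero ι).2 ψ0
  have s1 := (map_ne_zero ι).2 s0
  have a1 := (map_ne_zero ι).2 ha.1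
  refine ⟨_, ⟨ψ, hψ, rfl⟩, div_ne_zero p0 lj.1, ?_⟩
  have e1 : (1 : ℝ) ≤ Q.ord (ι P.t) := by exact_mod_cast lp.e_pos
  have k := hJ.dsc_up hK hK' one_pos one_ne_zero lp
  simp only [dsc, Pi.sub_apply, Pi.smul_apply, smul_eq_mul, dv_apply, map_one, one_mul, pow_one,
    Nat.cast_one, inv_one, Pl.ord_one, Int.cast_zero, sub_zero, mul_zero] at k
  change _ = (Q.ord (ι P.t) : ℝ) * _ at k
  have lp' : Lies ι Q P := lp
  have u1 := loc_uniq har plc ha' lq dq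
  have m1 : (m : ℝ) ≠ 0 := Nat.cast_ne_zero.2 m0.ne'
  have q1 : (q : ℝ) ≠ 0 := Nat.cast_ne_zero.2 q0.ne'
  have u' : (Q.ord a' : ℝ) / m' = Q.ord (ι a * ((J * s' / ι s) ^ q * j) ^ m) / m := by
    rw [div_eq_div_iff (Nat.cast_ne_zero.2 m0'.ne') m1]
    linarith
  rw [fr' _ _ E Q i' (o Q i'), o Q i', o Q i', u', Pl.ord_mul _ a1 (pow_ne_zero _ L.1), Pl.ord_pow,
    Pl.ord_mul _ (pow_ne_zero _ l.1) lj.1, Pl.ord_pow, Pl.ord_div _ (mul_ne_zero hJ.1 s0') s1,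
    Pl.ord_mul _ hJ.1 s0', Pl.ord_div _ p0 lj.1, lp'.ord a, lp'.ord s, lp'.ord ψ]
  have c := mul_le_mul e1 b ε0 (by linarith)
  rw [one_mul] at c
  refine c.trans_eq ?_
  have k' : cn Y.K d Q = Q.ord (ι P.t) * (1 + cn X.K d P) + Q.ord J - 1 := by linarith
  rw [k']
  push_cast
  field_simp
  ring

end Vale.Agent.P283R.Zz
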