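import Vale.Agent.P283R.Zz.Two85
import Vale.Agent.P283R.Zz.Plw85
import Vale.Agent.P283R.Zz.Apr94
import Vale.Agent.P283R.Zz.Sys47
import Vale.Agent.P283R.Zz.Qcd9
import Vale.Agent.P283R.Zz.Locr16
import Vale.Agent.P283R.Zz.Upg64
import Vale.Agent.P283R.Zz.Glbr90
import Vale.Agent.P283R.Zz.Brt11
import Vale.Agent.P283R.Zz.Nfd61
import Vale.Agent.P283R.Zz.Nfx88
import Vale.Agent.P283R.Zz.End14
import Vale.Agent.P283R.Zz.Fin31
import Vale.Agent.P283R.Sl.Un3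
import Vale.Agent.P283R.Lz.Wz

/-!
# P283R, block ZZ: klt complements ascend along étale maps at attracting points
-/

open CategoryTheory AlgebraicGeometry

namespace Vale.Agent.P283R

theorem Zz.up : Zz.UP2 :=
  Zz.up2 (Zz.zz2 (Zz.sysr47 Zz.apr94) (Zz.locr16 Zz.qcd9) (Zz.glbr90 Zz.upg64) Zz.brt11
    (Zz.nfxr88 Zz.nfd61 Zz.nfu61) Zz.end14 (Zz.plwr2_85 Zz.fin31))

open Sl Sl.Var in
/-- **bounded klt complements ascend along étale maps at attracting points** -/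
theorem Lz.on_sink {C : ∀ (_ : ℕ) (X Z : Var), (X.X ⟶ Z.X) → Pt Z.X → Prop}
    {P : ∀ (d : ℕ) (X Z : Var), (X.X ⟶ Z.X) → X.Form d → X.QDiv → Pt Z.X → Prop}
    (h : OnN fun d X Z f _ _ z => C d X Z f z) (h' : OnN P) :
    OnN fun d X Z f ω B z => Lz.Sink d (C d) (P d X Z f ω B) f z :=
  On.mono (Zz.up (fun d X Z f ω z => FanoType f ω ∧ C d X Z f z) _
    (On.mono h fun _ _ _ _ _ _ _ u => ⟨u.1.1, u.2, u.1.2⟩) h')
    fun _ _ _ _ _ _ _ ⟨u, v, a, b⟩ => ⟨v, a, fun η s n =>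
      let ⟨x, c, k, p⟩ := b η s n; ⟨x, c, k, u, v, p⟩⟩

end Vale.Agent.P283R
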