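import Vale.Agent.P283R.Zz.All
import Vale.Agent.P283R.Lz.Wa
import Vale.Agent.P283R.Lz.Kp

/-!
# P283R, block ZZ: the étale ascent in the short words
-/

open CategoryTheory AlgebraicGeometry

namespace Vale.Agent.P283R.Lz

open Sl Sl.Var

variable {C : ∀ (_ : ℕ) (X Z : Var), (X.X ⟶ Z.X) → Pt Z.X → Prop}
  {P : ∀ (d : ℕ) (X Z : Var), (X.X ⟶ Z.X) → X.Form d → X.QDiv → Pt Z.X → Prop}

/-- bounded klt complements ascend along étale maps at attracting points -/
theorem on_attr (h : OnN fun d X Z f _ _ z => C d X Z f z) (h' : OnN P) :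
    OnN fun d X Z f ω B z => Attr d (C d) (P d X Z f ω B) f z :=
  on_sink h h'

/-- the linked data form a class with one index -/
theorem onN_link {ε : ℝ} {R : Finset ℚ} (h : OnN P) (hε : 0 < ε) (hR : ∀ r ∈ R, 0 ≤ r ∧ r ≤ 1) :
    OnN (Link ε R P) := fun d _ _ _ _ _ =>
  (lnk h d hε hR).imp fun _ u => ⟨u.1, fun X Z f ω B z _ _ _ _ _ _ v => (u.2 X Z f ω B z v.2.2).1⟩

/-- a class together with the data which are étale over an attracting point and linked to the
class at the nearby points -/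
theorem on_attr_link {ε : ℝ} {R : Finset ℚ} (h : OnN fun d X Z f _ _ z => C d X Z f z)
    (h' : OnN P) (hε : 0 < ε) (hR : ∀ r ∈ R, 0 ≤ r ∧ r ≤ 1) :
    OnN fun d X Z f ω B z => P d X Z f ω B z ∨ Attr d (C d) (Link ε R P d X Z f ω B) f z :=
  h'.or (on_attr h (onN_link h' hε hR))

end Vale.Agent.P283R.Lz
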