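import Vale.Agent.P283R.Zz.St

/-!
# P283R, block ZZ: the section at one divisor
-/

set_option linter.all false

open Set CategoryTheory AlgebraicGeometry

noncomputable section

namespace Vale.Agent.P283R.Zz

open Vale.Agent.P289 (Pt St toRat val DForm dimension)
open Vale.Agent.P287D Vale.Agent.P283M Vale.Agent.P283M.Stm Vale.Agent.P283M.Stm.Var
open Vale.Agent.P283M.Br Vale.Agent.P283R.Br Vale.Agent.P297Z
open Vale.Agent.P283R.Et (Pe Rat exists_rat)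
open Vale.Agent.P283R.Eb (Ep Bc Lin ForP ForB ord_mul' ord_pow' lin_of)

theorem end57 : END := by
  intro X Z Y W f e g π ι bc d q n ω ω' B B₂ D φ g₀ V M E w wV hd q0 n0 hdim h0 h0' g0 hB₂ rel hw
    le ⟨U, Λ, φ₂, wU, hΛ, hp, lq⟩
  have h := bc.ep
  let _ := ι.toAlgebra
  have := h.tower
  have hK := ffd X _ hdim
  have hK' := ffd Y _ (Eb.dim X Y π ι h d hdim)
  obtain ⟨s, s0, fr⟩ := frm X _ hK ω h0
  obtain ⟨s', s0', fr'⟩ := frm Y _ hK' ω' h0'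
  obtain ⟨J, hJ⟩ := exists_rat hK hK'
  have l := lin_of Eb.div h hK hK' s0 s0' fr fr' hJ (B := 0) (B' := 0) fun _ _ _ => rfl
  have sq : ∀ y : Pt Y.X, (y.map π).map f = (y.map g).map e := fun y => by
    change (π ≫ f) y = (g ≫ e) y
    rw [bc.pb.w]
  have xU : (Pt.map π (Pt.map M.π E.1)) ∈ f ⁻¹ᵁ U := by
    change Pt.map f (Pt.map π (Pt.map M.π E.1)) ∈ U
    rw [sq, hw]
    exact wU
  have hg := lq _ xU
  have p0 := (map_ne_zero ι).2 hg.1
  have g1 := (map_ne_zero ι).2 g0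
  have a0 := mul_ne_zero p0 (pow_ne_zero n l.1)
  have b0 := div_ne_zero rel.1 g1
  have qr : (0 : ℝ) < q := Nat.cast_pos.2 q0
  have nr : (0 : ℝ) < n := Nat.cast_pos.2 n0
  refine ⟨V ⊓ e ⁻¹ᵁ U, (ι φ₂ * (J * s' / ι s) ^ n) ^ q * (φ / ι g₀) ^ n, ⟨wV, wU⟩,
    mul_ne_zero (pow_ne_zero _ a0) (pow_ne_zero _ b0), fun F hF => ?_, ?_⟩
  · obtain ⟨y, y1, y2⟩ := Eb.div X Y π ι h F
    have yU : y.1 ∈ f ⁻¹ᵁ U := by
      change Pt.map f y.1 ∈ U
      rw [← y1, sq]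
      exact hF.2
    have c1 := (lq _ yU).2 y specializes_rfl
    have c2 := hΛ y yU
    have c3 := hB₂ y
    have c4 := rel.2 F y hF.1 y1
    have c5 := l.2 F y y1
    have c6 : ord (φ / ι g₀) F = ord φ F - ord g₀ y := by
      rw [← y2, eq_sub_iff_add_eq, ← ord_mul' b0 g1, div_mul_cancel₀ _ g1]
    rw [ord_mul' (pow_ne_zero _ a0) (pow_ne_zero _ b0), ord_pow', ord_pow',
      ord_mul' p0 (pow_ne_zero _ l.1), ord_pow', y2, c6]
    simp only [logCan, Finsupp.coe_zero, Pi.zero_apply, add_zero] at c1 c5 ⊢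
    push_cast
    rw [c1, c5]
    have c7 : (0 : ℚ) ≤ q * n * (Λ y - B₂ y) := by
      have := sub_nonneg.2 c2
      positivity
    have c8 : (n : ℚ) * (q * B F) = n * (q * B₂ y - ord g₀ y + ord φ F) := by
      rw [c4, c3]
      ring
    linarith
  · obtain ⟨⟨Q, i'⟩, o⟩ := plc Y M.Y M.pull (mdc Y M).1 E
    have dq := (mdc Y M).2 E Q i'
    obtain ⟨P, lp⟩ := Pb.down hK hK' Q
    have dp := h.dom lp dq
    obtain ⟨M₀, E₀, e₀, i⟩ := mod X P _ dp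
    have o₀ := (plc X M₀.Y M₀.pull (mdc X M₀).1 E₀).2 P i
    have a := hp.2.2 M₀ E₀ (e₀ ▸ xU) n φ₂ n0 (e₀ ▸ hg)
    rw [fr _ _ E₀ P i o₀, o₀, ← dsc_eq n0 hg.1 s0] at a
    have e1 : (0 : ℝ) < Q.ord (algebraMap X.K Y.K P.t) := by exact_mod_cast lp.e_pos
    have b := mul_pos e1 a
    have s1 := (map_ne_zero ι).2 s0
    have c : algebraMap X.K Y.K (φ₂ / s ^ n) * J ^ n = ι φ₂ * (J * s' / ι s) ^ n / s' ^ n := by
      change ι _ * _ = _
      rw [map_div₀, map_pow, div_pow, mul_pow]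
      field_simp
    rw [← hJ.dsc_up hK hK' n0 (div_ne_zero hg.1 (pow_ne_zero _ s0)) lp, c,
      dsc_eq n0 a0 s0'] at b
    rw [o Q i', o Q i'] at le
    have le' : (Q.ord φ : ℝ) ≤ Q.ord (ι g₀) := by exact_mod_cast le
    rw [fr' _ _ E Q i' (o Q i'), o Q i', Pl.ord_mul _ (pow_ne_zero _ a0) (pow_ne_zero _ b0),
      Pl.ord_pow, Pl.ord_pow, Pl.ord_div _ rel.1 g1]
    push_cast
    have k : ((q : ℝ) * Q.ord (ι φ₂ * (J * s' / ι s) ^ n) + n * (Q.ord φ - Q.ord (ι g₀))) / (q * n)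
        ≤ Q.ord (ι φ₂ * (J * s' / ι s) ^ n) / n := by
      rw [div_le_div_iff₀ (mul_pos qr nr) nr]
      have := mul_nonneg (mul_pos nr nr).le (sub_nonneg.2 le')
      linarith
    linarith

end Vale.Agent.P283R.Zz
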