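import Vale.Agent.P283R.Zz.St

/-!
# P283R, block ZZ: the new boundary is anti-nef (row NFXR)
-/

open Set CategoryTheory AlgebraicGeometry

noncomputable section

namespace Vale.Agent.P283R.Zz

open Vale.Agent.P289 (Pt DForm dimension)
open Vale.Agent.P287D Vale.Agent.P283M Vale.Agent.P283M.Stm Vale.Agent.P283M.Stm.Var
open Vale.Agent.P297Z
open Vale.Agent.P283R.Eb (Ep Bc Lin)

theorem X1.lq {X Y : Var} {π : Y.X ⟶ X.X} {ι : X.K →+* Y.K} (h : Ep π ι) {d q : ℕ}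
    {ω : DForm ℂ X.K d} {ω' : DForm ℂ Y.K d} (hd : dimension X.str = d) (h0 : ω.Nonzero)
    (h0' : ω'.Nonzero) {B : Y.QDiv} {B₂ : X.QDiv} {D : X.PrimeDiv → ℤ} {φ : Y.K} {g₀ : X.K}
    {O : Y.X.Opens} (g0 : g₀ ≠ 0) (e : ∀ E, q * B₂ E = D E + ord g₀ E) (r : Rel π O q B D φ) :
    ∃ j, Lq π O q (-logCan ω' B) (-logCan ω B₂) j := by
  obtain ⟨j, hj⟩ := Eb.can_of Eb.dim Eb.div X Y π ι h d ω ω' hd h0 h0'
  obtain ⟨j0, l⟩ := hj 0 0 fun _ _ _ => rfl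
  have i0 := (map_ne_zero ι).2 g0
  have p0 := mul_ne_zero r.1 (pow_ne_zero q j0)
  refine ⟨ι g₀ / (φ * j ^ q), div_ne_zero i0 p0, fun E F m a => ?_⟩
  obtain ⟨F', a', o'⟩ := Eb.div X Y π ι h E
  obtain rfl : F' = F := Subtype.ext (a'.symm.trans a)
  obtain ⟨P, -, o⟩ := Br.pl_of Br.plc E
  have k : ord (ι g₀ / (φ * j ^ q)) E = ord g₀ F' - (ord φ E + q * ord j E) := by
    rw [← o', o, o, o, o, Pl.ord_div _ i0 p0, Pl.ord_mul _ r.1 (pow_ne_zero q j0), Pl.ord_pow]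
  have l1 := l E F' a
  have l2 := r.2 E F' m a
  have l3 := e F'
  simp only [logCan, Finsupp.coe_zero, Pi.zero_apply, add_zero] at l1
  simp only [Pi.neg_apply, logCan, k, l1]
  push_cast
  linarith

/-- **NFXR** -/
theorem nfxr1 : NFXR := by
  intro nd nu X Z Y W f e g π ι h d q ω ω' B B₂ D φ g₀ V w hw d1 q0 hd h0 h0' g0 eq r lo att nf
  obtain ⟨j, hj⟩ := X1.lq h.ep hd h0 h0' g0 eq r
  have := h.et
  rintro C ⟨t, ht⟩
  obtain ⟨σ, τ, ι', j', bc, ⟨w', hw', et⟩, l⟩ :=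
    att ⟨e '' V, e.isOpenMap _ V.isOpen⟩ t ⟨w, hw, rfl⟩
  obtain ⟨j'', hj'⟩ := X1.lq (O := ⊤) (B := B₂) (φ := j' * g₀) bc.ep hd h0 h0 g0 eq
    ⟨mul_ne_zero l.1 g0, fun E F _ a => by
      rw [eq, show (D E : ℚ) = _ from l.2 E F a, Eb.ord_mul' l.1 g0, Int.cast_add, add_assoc]⟩
  refine nu X Z X Z f τ f σ ι' bc q _ _ j'' t q0 hj'
    ((Eb.logCan_fin d1 hd h0 B₂).subset fun F k z => k (neg_eq_zero.2 z)) (fun x => ?_) ?_ C ht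
  · obtain ⟨m, a, m0, a0, k⟩ := lo x
    refine ⟨m, a⁻¹, m0, inv_ne_zero a0, fun F s => ?_⟩
    obtain ⟨P, -, o⟩ := Br.pl_of Br.plc F
    rw [Pi.neg_apply, mul_neg, ← k F s, o, o, Pl.ord_inv, Int.cast_neg]
  · exact et ▸ nd X Z Y W f e g π ι h V q _ _ j w' hw' q0 hj fun C' a => nf C' ⟨w', a⟩

end Vale.Agent.P283R.Zz
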