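import Vale.Agent.P283R.Zz.St
import Vale.Agent.P283R.To.GlMse
import Vale.Agent.P283R.Br.Glue

/-!
# P283R, block ZZ: the new boundary is anti-nef
-/

open Set CategoryTheory AlgebraicGeometry

noncomputable section

namespace Vale.Agent.P283R.Zz

open Vale.Agent.P289 (Pt St toRat val DForm dimension)
open Vale.Agent.P287D Vale.Agent.P283M Vale.Agent.P283M.Stm Vale.Agent.P283M.Stm.Var
open Vale.Agent.P297Z
open Vale.Agent.P283R.Eb (Ep Bc Lin)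
open Vale.Agent.P283R.Gl (pq pq_ord)

theorem lq20 {X Y : Var} {π : Y.X ⟶ X.X} {ι : X.K →+* Y.K} (h : Ep π ι) {d q : ℕ}
    {ω : DForm ℂ X.K d} {ω' : DForm ℂ Y.K d} {B : Y.QDiv} {B₂ : X.QDiv} {D : X.PrimeDiv → ℤ}
    {φ : Y.K} {g₀ : X.K} {O : Y.X.Opens} (hd : dimension X.str = d) (h0 : ω.Nonzero)
    (h0' : ω'.Nonzero) (g0 : g₀ ≠ 0) (hB : ∀ E, q * B₂ E = D E + ord g₀ E)
    (r : Rel π O q B D φ) : ∃ j, Lq π O q (-logCan ω' B) (-logCan ω B₂) j := by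
  obtain ⟨J, hJ⟩ := Eb.can_of Eb.dim Eb.div X Y π ι h d ω ω' hd h0 h0'
  obtain ⟨J0, hJ⟩ := hJ 0 0 fun _ _ _ => rfl
  have g1 := (map_ne_zero ι).2 g0
  have p0 := mul_ne_zero r.1 (pow_ne_zero q J0)
  refine ⟨ι g₀ / (φ * J ^ q), div_ne_zero g1 p0, fun E F c e => ?_⟩
  obtain ⟨F', e', o⟩ := Eb.div X Y π ι h E
  obtain rfl : F' = F := Subtype.ext (e'.symm.trans e)
  have h1 := hJ E F' e
  have h2 := r.2 E F' c e
  have h3 := hB F'
  rw [← o] at h3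
  rw [pq_ord, Pl.ord_div _ g1 p0, Pl.ord_mul _ r.1 (pow_ne_zero q J0), Pl.ord_pow, ← pq_ord,
    ← pq_ord, ← pq_ord]
  simp only [logCan, Pi.neg_apply, Finsupp.zero_apply] at h1 ⊢
  push_cast
  linear_combination h3 - h2 - q * h1

/-- **NFXR** -/
theorem nfxr20 : NFXR := by
  intro nfd nfu X Z Y W f e g π ι bc d q ω ω' B B₂ D φ g₀ V w wV hd q0 hX h0 h0' g0 hB r lc att hn
    C ⟨t, ht⟩
  have := bc.et
  obtain ⟨j, lj⟩ := lq20 bc.ep hX h0 h0' g0 hB r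
  obtain ⟨σ, τ, ι', j', bc', ⟨w', wV', ew⟩, l⟩ :=
    att ⟨e '' V, e.isOpenMap _ V.isOpen⟩ t ⟨w, wV, rfl⟩
  obtain ⟨j'', lj'⟩ := lq20 (O := ⊤) (B := B₂) (φ := g₀ * j') bc'.ep hX h0 h0 g0 hB
    ⟨mul_ne_zero g0 l.1, fun E F _ c => by
      have h1 := l.2 E F c
      rw [hB, pq_ord E (g₀ * j'), Pl.ord_mul _ g0 l.1, ← pq_ord, ← pq_ord]
      push_cast
      linear_combination h1⟩
  obtain ⟨n, rfl⟩ : ∃ n, d = n + 1 := ⟨d - 1, by omega⟩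
  have hK := Br.ffd X _ hX
  obtain ⟨s, -, fr⟩ := Br.frm X _ hK ω h0
  refine nfu X Z X Z f τ f σ ι' bc' q _ _ j'' t q0 lj'
    (((P283R.Br.form_fin hK fr).union B₂.support.finite_toSet).subset fun F a =>
      by_contra fun b => a ?_) (fun x => ?_)
    ((show Pt.map e w' = Pt.map τ t from ew) ▸
      nfd X Z Y W f e g π ι bc V q _ _ j w' wV' q0 lj fun C a => hn C ⟨w', a⟩) C ht
  · rw [mem_union, not_or] at b
    rw [Pi.neg_apply, logCan, not_not.1 b.1, Finsupp.notMem_support_iff.1 b.2]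
    simp
  · obtain ⟨m, a, m0, a0, ha⟩ := lc x
    refine ⟨m, a⁻¹, m0, inv_ne_zero a0, fun y c => ?_⟩
    rw [pq_ord, Pl.ord_inv, ← pq_ord, Int.cast_neg, ha y c, Pi.neg_apply, mul_neg]

end Vale.Agent.P283R.Zz
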