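import Vale.Agent.P283R.Zz.St

/-!
# P283R, block ZZ: the row NFXR
-/

open Set CategoryTheory AlgebraicGeometry

noncomputable section

namespace Vale.Agent.P283R.Zz

open Vale.Agent.P289 (Pt St toRat val DForm dimension)
open Vale.Agent.P287D Vale.Agent.P283M Vale.Agent.P283M.Stm Vale.Agent.P283M.Stm.Var
open Vale.Agent.P283R.Eb (Ep Bc Lin ForP ForB)
open Vale.Agent.P283R.Eb.Amp (o_mul o_inv o_pow)

/-- the log canonical divisors are related -/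
theorem lq84 {X Y : Var} {π : Y.X ⟶ X.X} {ι : X.K →+* Y.K} (h : Ep π ι) {d q : ℕ}
    {ω : DForm ℂ X.K d} {ω' : DForm ℂ Y.K d} {B : Y.QDiv} {B₂ : X.QDiv} {D : X.PrimeDiv → ℤ}
    {φ : Y.K} {g₀ : X.K} {O : Y.X.Opens} (hd : dimension X.str = d) (hω : ω.Nonzero)
    (hω' : ω'.Nonzero) (g0 : g₀ ≠ 0) (hB : ∀ E, q * B₂ E = D E + ord g₀ E)
    (r : Rel π O q B D φ) : ∃ j, Lq π O q (-logCan ω' B) (-logCan ω B₂) j := by
  obtain ⟨j, hj⟩ := Eb.can_of Eb.dim Eb.div X Y π ι h d ω ω' hd hω hω'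
  obtain ⟨j0, hl⟩ := hj 0 0 fun _ _ _ => rfl
  have i0 : ι g₀ ≠ 0 := (map_ne_zero ι).2 g0
  have p0 : j ^ q * φ ≠ 0 := mul_ne_zero (pow_ne_zero _ j0) r.1
  refine ⟨ι g₀ * (j ^ q * φ)⁻¹, mul_ne_zero i0 (inv_ne_zero p0), fun E F hE e => ?_⟩
  obtain ⟨y, hy, ho⟩ := Eb.div X Y π ι h E
  obtain rfl : y = F := Subtype.ext (hy.symm.trans e)
  have a := hl E y e
  have b := r.2 E y hE e
  have c := hB y
  simp only [logCan, Finsupp.coe_zero, Pi.zero_apply, add_zero] at a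
  rw [o_mul i0 (inv_ne_zero p0), o_inv p0, o_mul (pow_ne_zero _ j0) r.1, o_pow j0, ho,
    Pi.neg_apply, Pi.neg_apply, logCan, logCan, a]
  linarith

/-- **NFXR** -/
theorem nfxr84 : NFXR := by
  intro nfd nfu X Z Y W f e g π ι h d q ω ω' B B₂ D φ g₀ V w hw hd hq hX hω hω' g0 hB r lq att nef
  rintro C ⟨t, ht⟩
  have := h.et
  obtain ⟨σ, τ, ι', j, h', ⟨w', hw', e'⟩, l⟩ :=
    att ⟨e '' V, e.isOpenMap _ V.isOpen⟩ t ⟨w, hw, rfl⟩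
  obtain ⟨j₁, l₁⟩ := lq84 h.ep hX hω hω' g0 hB r
  obtain ⟨j₂, l₂⟩ := lq84 (O := ⊤) (B := B₂) (φ := j * g₀) h'.ep hX hω hω g0 hB
    ⟨mul_ne_zero l.1 g0, fun E F _ x => by
      rw [hB, show (D E : ℚ) = D F + ord j E from l.2 E F x, o_mul l.1 g0, add_assoc]⟩
  have k := nfd X Z Y W f e g π ι h V q _ _ j₁ w' hw' hq l₁ fun C a => nef C ⟨w', a⟩
  refine nfu X Z X Z f τ f σ ι' h' q _ _ j₂ t hq l₂
    ((Eb.logCan_fin hd hX hω B₂).subset fun y a b => a (by rw [Pi.neg_apply, b, neg_zero]))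
    (fun x => ?_) ((show Pt.map e w' = t.map τ from e') ▸ k) C ht
  obtain ⟨m, a, m0, a0, ha⟩ := lq x
  refine ⟨m, a⁻¹, m0, inv_ne_zero a0, fun y s => ?_⟩
  rw [o_inv a0, ha y s, Pi.neg_apply, mul_neg]

end Vale.Agent.P283R.Zz
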