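import Vale.Agent.P283R.Zz.St
import Vale.Agent.P283R.Zz.Fgs47

/-!
# P283R, block ZZ: sections at all divisors give a complement
-/

open Set CategoryTheory AlgebraicGeometry
open Vale.Agent.P289 Vale.Agent.P289.H219 Vale.Agent.P270L Vale.Agent.P283M.Am Vale.Agent.P299.G

noncomputable section

namespace Vale.Agent.P283R.Zz

open Vale.Agent.P287D Vale.Agent.P283M Vale.Agent.P283M.Br Vale.Agent.P283M.Stm.Var
open Vale.Agent.P283M.Stm (Contraction Pair HasKltComplement Model)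
open Vale.Agent.P297Z Vale.Agent.P283R.Br Vale.Agent.P283R.Eb Vale.Agent.P283R.Eb.Ds

/-- **PLWR** -/
theorem plwr45 : PLWR := by
  intro fi X Z f d N ω B z U hd hN hdim hω hf hB hz zU H1 H2
  classical
  obtain ⟨n, rfl⟩ : ∃ m, d = m + 1 := ⟨d - 1, by omega⟩
  have hK := ffd X _ hdim
  obtain ⟨h, h0, fr⟩ := frm X _ hK ω hω
  obtain ⟨y, D, hy, e⟩ := Cb.exists_cn hK
  obtain ⟨_, ⟨V, hV, rfl⟩, zV, le⟩ :=
    Z.X.isBasis_affineOpens.exists_subset_of_mem_open (show z ∈ (U : Set Z.X) from zU) U.isOpen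
  obtain ⟨A, χ, bs⟩ := exists_bz hf hV zV hz
  have fc : {E : X.PrimeDiv | ⌈(N : ℚ) * logCan ω B E⌉ ≠ 0}.Finite :=
    ((form_fin hK fr).union B.support.finite_toSet).subset fun E hE => by_contra fun k => hE (by
      rw [mem_union, not_or, mem_ofPred, not_not, Finset.mem_coe, Finsupp.notMem_support_iff] at k
      simp [logCan, k.1, k.2])
  obtain ⟨u, h1, h2⟩ := fi X (f ⁻¹ᵁ V) _ fc
  have hh := pow_ne_zero N h0
  have N0 : (0 : ℝ) < N := Nat.cast_pos.2 (by omega)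
  have H : ∀ (M : Model X) (E : M.Y.PrimeDiv), E.1.map M.π ∈ f ⁻¹ᵁ V →
      Kl f ω B N ((E.1.map M.π).map f) M E := fun M E hE => by
    by_cases k : (E.1.map M.π).map f = z
    · exact k ▸ H1 M E k
    have := LocallyOfFiniteType.jacobsonSpace Z.str
    obtain ⟨v, ⟨v1, v2, v3⟩, c⟩ := nonempty_inter_closedPoints
      (Z := closure {((E.1.map M.π).map f : Z.X)} ∩ ((V : Set Z.X) ∩ {z}ᶜ))
      ⟨_, subset_closure rfl, hE, k⟩ (isClosed_closure.isLocallyClosed.inter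
        (V.isOpen.inter hz.isOpen_compl).isLocallyClosed)
    obtain ⟨U', Λ, φ, vU, hΛ, hp, lq⟩ := H2 v (le v2) c v3
    have xU : E.1.map M.π ∈ f ⁻¹ᵁ U' :=
      (specializes_iff_mem_closure.2 v1).mem_open U'.isOpen vU
    refine ⟨U', φ, xU, (lq _ xU).1, fun F hF => ?_, hp.2.2 M E xU N φ (by omega) (lq _ xU)⟩
    rw [(lq _ hF).2 F specializes_rfl]
    exact mul_le_mul_of_nonneg_left (add_le_add le_rfl (hΛ F hF)) (Nat.cast_nonneg N)
  let ψ : Fin u.card → X.K := fun l => u.equivFin.symm l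
  have mu : ∀ l, ψ l ∈ u := fun l => (u.equivFin.symm l).2
  have key : ∀ Q : Pl X.K, (∀ a ∈ A, a ∈ Q.ring) →
      ∃ l, ψ l / h ^ N ≠ 0 ∧ 0 < ld y N (ψ l / h ^ N) Q := fun Q q => by
    obtain ⟨x, xV, dm⟩ := bs.ctr Q q
    obtain ⟨M, E, rfl, i⟩ := mod X Q x dm
    have oq := (plc X M.Y M.pull (mdc X M).1 E).2 Q i
    obtain ⟨U', φ, zU', φ0, p1, p2⟩ := H M E xV
    rw [fr _ _ E Q i oq, oq, e] at p2
    obtain ⟨a, a0, -, a1, m, a2⟩ :=
      F47.ext hf hV xV zU' fc φ0 fun E hE => Int.ceil_le.2 (p1 E hE)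
    have n0 := mul_ne_zero (pow_ne_zero m a0) φ0
    obtain ⟨b, b1, b2⟩ := h2 _ n0 a2 _ xV
    have s : ∑ l, ψ l * b (ψ l) = a ^ m * φ := by
      rw [b2, ← Finset.sum_coe_sort u]
      exact u.equivFin.symm.sum_comp fun t => (t : X.K) * b t
    obtain ⟨j, j0, j1⟩ := Et.exists_le (P := Q) (c := ψ) (fun j => (dm _ (b1 (ψ j))).1) (s ▸ n0)
    rw [s, Pl.ord_mul _ (pow_ne_zero _ a0) φ0, Pl.ord_pow, a1 _ rfl Q fun g a => (dm g a).1,
      mul_zero, zero_add, ← Int.cast_le (R := ℝ)] at j1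
    refine ⟨j, div_ne_zero j0 hh, ?_⟩
    rw [ld, Pl.ord_div _ j0 hh, Pl.ord_pow]
    push_cast
    rw [sub_div, mul_div_cancel_left₀ _ N0.ne']
    have := div_le_div_of_nonneg_right j1 N0.le
    linarith
  refine down hK fr h0 hB ⟨D, hy⟩ e zV bs hN (fun l => ψ l / h ^ N) ?_ (fun l l0 E hE => ?_)
    fun P p => key P p.1
  · obtain ⟨x, E, hx, s⟩ := F47.exd hK hf hz
    obtain ⟨P, i, -⟩ := pl_of plc E
    exact (key P fun g a => (i g).2 (reg_gen s ((bs.mem g).1 a x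
      (show Pt.map f x ∈ V from hx ▸ zV)))).imp fun _ a => a.1
  · have j0 : ψ l ≠ 0 := left_ne_zero_of_mul l0
    have := Int.ceil_le.1 ((h1 _ (mu l)).2 E hE)
    obtain ⟨P, -, o⟩ := pl_of plc E
    rw [o, o, Pl.ord_div _ j0 hh, Pl.ord_pow]
    rw [o, logCan] at this
    push_cast
    linarith

end Vale.Agent.P283R.Zz
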