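import Vale.Agent.P283R.Zz.St
import Vale.Agent.P283R.Zz.Fgs47

/-!
# P283R, block ZZ: sections at all divisors give a complement
-/

set_option linter.all false

open Set CategoryTheory AlgebraicGeometry
open Vale.Agent.P289 Vale.Agent.P289.H219 Vale.Agent.P270L Vale.Agent.P283M.Am Vale.Agent.P299.G

noncomputable section

namespace Vale.Agent.P283R.Zz

open Vale.Agent.P287D Vale.Agent.P283M Vale.Agent.P283M.Br Vale.Agent.P283M.Stm.Var
open Vale.Agent.P283M.Stm (Contraction Pair HasKltComplement FanoType)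
open Vale.Agent.P297Z Vale.Agent.P283R.Br Vale.Agent.P283R.Eb Vale.Agent.P283R.Eb.Ds

/-- a closed specialisation other than `w` -/
theorem cls60 {W : Stm.Var} {U : W.X.Opens} {w t : Pt W.X} (hw : IsClosed ({w} : Set (Pt W.X)))
    (tU : t ∈ U) (ne : t ≠ w) : ∃ v ∈ U, IsClosed ({v} : Set (Pt W.X)) ∧ v ≠ w ∧ t ⤳ v := by
  have : JacobsonSpace W.X := LocallyOfFiniteType.jacobsonSpace W.str
  obtain ⟨v, ⟨⟨a, b⟩, c⟩, e⟩ := nonempty_inter_closedPoints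
    (Z := (closure ({t} : Set W.X) ∩ U) ∩ {w}ᶜ) ⟨t, ⟨subset_closure rfl, tU⟩, ne⟩
    ((isClosed_closure.isLocallyClosed.inter U.isOpen.isLocallyClosed).inter
      hw.isOpen_compl.isLocallyClosed)
  exact ⟨v, b, e, c, specializes_iff_mem_closure.2 a⟩

/-- **PLWR** -/
theorem plwr60 : PLWR := by
  intro fn X Z f d N ω B z U hd hN hdim hω hf hB hz zU H1 H2
  classical
  obtain ⟨n, rfl⟩ : ∃ m, d = m + 1 := ⟨d - 1, by omega⟩
  have hK := ffd X _ hdim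
  obtain ⟨h, h0, fr⟩ := frm X _ hK ω hω
  obtain ⟨y, D, hy, e⟩ := Cb.exists_cn hK
  obtain ⟨_, ⟨V, hV, rfl⟩, zV, le⟩ := Z.X.isBasis_affineOpens.exists_subset_of_mem_open
    (show z ∈ (U : Set Z.X) from zU) U.isOpen
  obtain ⟨A, χ, bs⟩ := exists_bz hf hV zV hz
  have fc : {E : X.PrimeDiv | ⌈(N : ℚ) * logCan ω B E⌉ ≠ 0}.Finite :=
    ((form_fin hK fr).union B.support.finite_toSet).subset fun E hE => by_contra fun k => hE (by
      rw [mem_union, not_or, mem_setOf, not_not, Finset.mem_coe, Finsupp.notMem_support_iff] at k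
      simp [logCan, k.1, k.2])
  obtain ⟨u, h1, h2⟩ := fn X (f ⁻¹ᵁ V) _ fc
  have hh := pow_ne_zero N h0
  have N0 : (0 : ℝ) < N := Nat.cast_pos.2 (by omega)
  let ψ : Fin u.card → X.K := fun l => u.equivFin.symm l
  have key : ∀ (Q : Pl X.K) (x : Pt X.X), x ∈ f ⁻¹ᵁ V → Dom Q.ring x →
      ∃ l, ψ l / h ^ N ≠ 0 ∧ 0 < ld y N (ψ l / h ^ N) Q := fun Q x hx q => by
    obtain ⟨M, E, rfl, i⟩ := mod X Q x q
    have oq := (plc X M.Y M.pull (mdc X M).1 E).2 Q i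
    have xV : (E.1.map M.π).map f ∈ V := hx
    obtain ⟨U', φ, xU, φ0, p1, p2⟩ : ∃ (U' : Z.X.Opens) (φ : X.K), (E.1.map M.π).map f ∈ U' ∧
        φ ≠ 0 ∧ (∀ F : X.PrimeDiv, F.1 ∈ f ⁻¹ᵁ U' → N * logCan ω B F ≤ ord φ F) ∧
        0 < 1 + (formOrd ω M.pull E - (ord (M.pull φ) E : ℝ) / N) := by
      by_cases c : (E.1.map M.π).map f = z
      · obtain ⟨U', φ, a⟩ := H1 M E c
        exact ⟨U', φ, c ▸ a.1, a.2⟩
      obtain ⟨v, vU, vc, vz, s⟩ := cls60 hz (le xV) c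
      obtain ⟨U', Λ, φ, vU', hΛ, hp, lq⟩ := H2 v vU vc vz
      have xU : (E.1.map M.π).map f ∈ U' := s.mem_open U'.isOpen vU'
      refine ⟨U', φ, xU, (lq _ xU).1, fun F hF => ?_, hp.2.2 M E xU N φ (by omega) (lq _ xU)⟩
      rw [(lq _ hF).2 F specializes_rfl, logCan, logCan]
      have := hΛ F hF
      gcongr
    rw [fr _ _ E Q i oq, oq] at p2
    obtain ⟨a, a0, -, a1, m, a2⟩ := F47.ext hf hV xV xU fc φ0 fun E hE => Int.ceil_le.2 (p1 E hE)
    have n0 := mul_ne_zero (pow_ne_zero m a0) φ0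
    obtain ⟨b, b1, b2⟩ := h2 _ n0 a2 _ hx
    have s : ∑ l, ψ l * b (ψ l) = a ^ m * φ := by
      rw [b2, ← Finset.sum_coe_sort u]
      exact u.equivFin.symm.sum_comp fun p => (p : X.K) * b p
    obtain ⟨j, j0, j1⟩ := Et.exists_le (P := Q) (c := ψ) (y := fun l => b (ψ l))
      (fun j => (q _ (b1 _)).1) (s ▸ n0)
    rw [s, Pl.ord_mul _ (pow_ne_zero _ a0) φ0, Pl.ord_pow, a1 _ rfl Q fun g r => (q g r).1,
      mul_zero, zero_add, ← Int.cast_le (R := ℝ)] at j1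
    refine ⟨j, div_ne_zero j0 hh, ?_⟩
    have j2 := div_le_div_of_nonneg_right j1 N0.le
    rw [ld, Pl.ord_div _ j0 hh, Pl.ord_pow, ← e]
    push_cast
    rw [sub_div, mul_div_cancel_left₀ _ N0.ne']
    linarith
  refine down hK fr h0 hB ⟨D, hy⟩ e zV bs hN (fun l => ψ l / h ^ N) ?_ (fun l l0 E hE => ?_)
    fun P p => let ⟨x, c1, c2⟩ := bs.ctr P p.1; key P x c1 c2
  · obtain ⟨x, E, hx, s⟩ := F47.exd hK hf hz
    obtain ⟨P, i, -⟩ := pl_of plc E
    obtain ⟨x', c1, c2⟩ := ctr_of (P := P) hf hV (x := x) (show Pt.map f x ∈ V from hx ▸ zV)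
      fun g a => (i g).2 (reg_gen s a)
    exact (key P x' c1 c2).imp fun _ a => a.1
  · have j0 : ψ l ≠ 0 := left_ne_zero_of_mul l0
    have := Int.ceil_le.1 ((h1 _ (u.equivFin.symm l).2).2 E hE)
    obtain ⟨P, -, o⟩ := pl_of plc E
    rw [o, o, Pl.ord_div _ j0 hh, Pl.ord_pow]
    rw [o, logCan] at this
    push_cast
    linarith

end Vale.Agent.P283R.Zz
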