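import Vale.Agent.P283R.Zz.St
import Vale.Agent.P283R.Zz.Fgs47

/-!
# P283R, block ZZ, row PLWR: a complement from sections at all divisors
-/

set_option linter.all false

open Set CategoryTheory AlgebraicGeometry
open Vale.Agent.P289 Vale.Agent.P289.H219 Vale.Agent.P270L Vale.Agent.P283M.Am Vale.Agent.P299.G

noncomputable section

namespace Vale.Agent.P283R.Zz

open Vale.Agent.P287D Vale.Agent.P283M Vale.Agent.P283M.Br Vale.Agent.P283M.Stm.Var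
open Vale.Agent.P283M.Stm (Contraction Pair HasKltComplement FanoType)
open Vale.Agent.P297Z Vale.Agent.P283R.Br Vale.Agent.P283R.Eb Vale.Agent.P283R.Eb.Ds

/-- a second closed point in the closure of a point -/
theorem P66.pt {W : Stm.Var} {V : W.X.Opens} {t w : Pt W.X} (tV : t ∈ V)
    (hw : IsClosed ({w} : Set (Pt W.X))) (ne : t ≠ w) :
    ∃ v : Pt W.X, v ∈ V ∧ IsClosed ({v} : Set (Pt W.X)) ∧ v ≠ w ∧ t ⤳ v := by
  have := LocallyOfFiniteType.jacobsonSpace W.str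
  obtain ⟨v, ⟨⟨a, b⟩, c⟩, e⟩ := nonempty_inter_closedPoints (X := W.X)
    (Z := ((V : Set W.X) ∩ {w}ᶜ) ∩ closure {t}) ⟨t, ⟨tV, ne⟩, subset_closure rfl⟩
    ((V.isOpen.inter hw.isOpen_compl).isLocallyClosed.inter isClosed_closure.isLocallyClosed)
  exact ⟨v, a, e, b, specializes_iff_mem_closure.2 c⟩

/-- **PLWR** -/
theorem plwr66 : PLWR := by
  intro fi X Z f d N ω B z U hd hN hdim hω hf hB hz zU H1 H2
  classical
  obtain ⟨n, rfl⟩ : ∃ n, d = n + 1 := ⟨d - 1, by omega⟩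
  have hK := ffd X _ hdim
  obtain ⟨h, h0, fr⟩ := frm X _ hK ω hω
  obtain ⟨y, D, hy, e⟩ := Cb.exists_cn hK
  obtain ⟨_, ⟨V, hV, rfl⟩, zV, VU⟩ :=
    Z.X.isBasis_affineOpens.exists_subset_of_mem_open zU U.isOpen
  obtain ⟨A, χ, bs⟩ := exists_bz hf hV zV hz
  have fc : {E : X.PrimeDiv | ⌈(N : ℚ) * logCan ω B E⌉ ≠ 0}.Finite :=
    ((form_fin hK fr).union B.support.finite_toSet).subset fun E hE => by_contra fun k => hE (by
      rw [mem_union, not_or, mem_setOf, not_not, Finset.mem_coe, Finsupp.notMem_support_iff] at k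
      simp [logCan, k.1, k.2])
  obtain ⟨u, h1, h2⟩ := fi X (f ⁻¹ᵁ V) _ fc
  let ψ : Fin u.card → X.K := fun l => (u.equivFin.symm l).1
  have hh := pow_ne_zero N h0
  have N1 : 0 < N := by omega
  have N0 : (0 : ℝ) < N := Nat.cast_pos.2 N1
  have key : ∀ (Q : Pl X.K), ∀ x ∈ f ⁻¹ᵁ V, Dom Q.ring x →
      ∃ l, ψ l / h ^ N ≠ 0 ∧ 0 < ld y N (ψ l / h ^ N) Q := fun Q x hx q => by
    obtain ⟨M, E, rfl, i⟩ := mod X Q x q
    have oq := (plc X M.Y M.pull (mdc X M).1 E).2 Q i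
    obtain ⟨v, U', φ, vV, s, vU, φ0, p1, p2⟩ : ∃ (v : Pt Z.X) (U' : Z.X.Opens) (φ : X.K), v ∈ V ∧
        (E.1.map M.π).map f ⤳ v ∧ v ∈ U' ∧ φ ≠ 0 ∧
        (∀ F : X.PrimeDiv, F.1 ∈ f ⁻¹ᵁ U' → N * logCan ω B F ≤ ord φ F) ∧
        0 < 1 + (formOrd ω M.pull E - (ord (M.pull φ) E : ℝ) / N) := by
      by_cases c : (E.1.map M.π).map f = z
      · obtain ⟨U', φ, a⟩ := H1 M E c
        exact ⟨z, U', φ, zV, c ▸ specializes_rfl, a⟩
      · obtain ⟨v, vV, v1, v2, s⟩ := P66.pt (V := V) hx hz c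
        obtain ⟨U', Λ, φ, vU, le, kl, lq⟩ := H2 v (VU vV) v1 v2
        have xU : E.1.map M.π ∈ f ⁻¹ᵁ U' := s.mem_open U'.isOpen vU
        refine ⟨v, U', φ, vV, s, vU, (lq _ xU).1, fun F hF => ?_, kl.2.2 M E xU N φ N1 (lq _ xU)⟩
        rw [(lq _ hF).2 F specializes_rfl]
        exact mul_le_mul_of_nonneg_left (add_le_add_right (le F hF) _) (Nat.cast_nonneg N)
    rw [fr _ _ E Q i oq, oq] at p2
    have := hf.2.1
    obtain ⟨x', c1, c2⟩ := s.mem_closed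
      (f.isClosedMap _ (isClosed_closure (s := ({E.1.map M.π} : Set X.X))))
      ⟨_, subset_closure rfl, rfl⟩
    obtain ⟨a, a0, -, a1, m, a2⟩ := F47.ext hf hV vV vU fc φ0 fun E hE => Int.ceil_le.2 (p1 E hE)
    have a3 := a1 x' c2 Q fun g hg => (q g (reg_gen (specializes_iff_mem_closure.2 c1) hg)).1
    have a4 := mul_ne_zero (pow_ne_zero m a0) φ0
    obtain ⟨b, b1, b2⟩ := h2 _ a4 a2 _ hx
    have s : ∑ l, ψ l * b (ψ l) = a ^ m * φ := by
      rw [b2, ← Finset.sum_coe_sort u]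
      exact u.equivFin.symm.sum_comp fun g => g.1 * b g.1
    obtain ⟨j, j0, j1⟩ := Et.exists_le (P := Q) (c := ψ) (fun j => (q _ (b1 (ψ j))).1) (s ▸ a4)
    rw [s, Pl.ord_mul _ (pow_ne_zero _ a0) φ0, Pl.ord_pow, a3, mul_zero, zero_add,
      ← Int.cast_le (R := ℝ)] at j1
    refine ⟨j, div_ne_zero j0 hh, ?_⟩
    have j2 := div_le_div_of_nonneg_right j1 N0.le
    rw [ld, Pl.ord_div _ j0 hh, Pl.ord_pow, ← e]
    push_cast
    rw [sub_div, mul_div_cancel_left₀ _ N0.ne']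
    linarith
  refine down hK fr h0 hB ⟨D, hy⟩ e zV bs hN (fun l => ψ l / h ^ N) ?_ (fun l l0 E hE => ?_)
    fun P p => let ⟨x, c1, c2⟩ := bs.ctr P p.1; key P x c1 c2
  · obtain ⟨x, E, hx, s⟩ := F47.exd hK hf hz
    obtain ⟨P, i, -⟩ := pl_of plc E
    exact (key P E.1 (s.mem_open (f ⁻¹ᵁ V).isOpen (show Pt.map f x ∈ V from hx ▸ zV))
      i.dom).imp fun _ a => a.1
  · have j0 : ψ l ≠ 0 := left_ne_zero_of_mul l0
    have := Int.ceil_le.1 ((h1 _ (u.equivFin.symm l).2).2 E hE)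
    obtain ⟨P, -, o⟩ := pl_of plc E
    rw [o, o, Pl.ord_div _ j0 hh, Pl.ord_pow]
    rw [o, logCan] at this
    push_cast
    linarith

end Vale.Agent.P283R.Zz
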