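import Vale.Agent.P283R.Eb.On
import Vale.Agent.P283R.Sl.Zz

/-!
# P283R, block ZZ: klt complements ascend along étale maps at attracting points (the rows)
-/

open Set CategoryTheory AlgebraicGeometry

noncomputable section

namespace Vale.Agent.P283R.Zz

open Vale.Agent.P289 (Pt St toRat val DForm dimension)
open Vale.Agent.P287D Vale.Agent.P283M Vale.Agent.P283M.Stm Vale.Agent.P283M.Stm.Var
open Vale.Agent.P283R.Et (Pe)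
open Vale.Agent.P283R.Eb (Ep Bc Lin ForP ForB)

section

variable {X Z Y W : Var} {d : ℕ}

/-- regular everywhere -/
def Rg (a : X.K) : Prop := ∀ x : Pt X.X, RegAt a x

/-- regular everywhere and zero on the fibre over `z` -/
def Vz (f : X.X ⟶ Z.X) (z : Pt Z.X) (a : X.K) : Prop :=
  Rg a ∧ (a ≠ 0 → ∀ x : Pt X.X, x.map f = z → ¬ RegAt a⁻¹ x)

/-- a product of `N` functions which vanish on the fibre -/
def Pw (f : X.X ⟶ Z.X) (z : Pt Z.X) (N : ℕ) (a : X.K) : Prop :=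
  ∃ l : Fin N → X.K, (∀ i, Vz f z (l i)) ∧ a = ∏ i, l i

/-- a global section of `D` -/
def Sc (D : X.PrimeDiv → ℤ) (ψ : X.K) : Prop := ψ ≠ 0 → ∀ E, 0 ≤ D E + ord ψ E

/-- `q K + D` -/
def kd (ω : DForm ℂ X.K d) (q : ℕ) (D : X.PrimeDiv → ℤ) (E : X.PrimeDiv) : ℚ :=
  q * formOrd ω (RingEquiv.refl X.K) E + D E

/-- the system `u` of sections of `D` with the weight `1 / q` is `ε`-lc at `x` -/
def Gd (ω : DForm ℂ X.K d) (q : ℕ) (ε : ℝ) (D : X.PrimeDiv → ℤ) (u : Set X.K) (x : Pt X.X) :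
    Prop :=
  (∃ m a, 0 < m ∧ LocalEq (kd ω q D) m a x) ∧ ∀ (M : Model X) (E : M.Y.PrimeDiv),
    E.1.map M.π = x → ∀ m a, 0 < m → LocalEq (kd ω q D) m a x → ∃ ψ ∈ u, ψ ≠ 0 ∧
      ε ≤ 1 + (formOrd ω M.pull E - ((ord (M.pull a) E : ℝ) / m + ord (M.pull ψ) E) / q)

/-- `q B = π^* D + div φ` on `O` -/
def Rel (π : Y.X ⟶ X.X) (O : Y.X.Opens) (q : ℕ) (B : Y.QDiv) (D : X.PrimeDiv → ℤ) (φ : Y.K) :
    Prop :=
  φ ≠ 0 ∧ ∀ (E : Y.PrimeDiv) (F : X.PrimeDiv), E.1 ∈ O → E.1.map π = F.1 →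
    q * B E = D F + ord φ E

/-- `q D' = q π^* D + div j` on `O` -/
def Lq (π : Y.X ⟶ X.X) (O : Y.X.Opens) (q : ℕ) (D' : Y.PrimeDiv → ℚ) (D : X.PrimeDiv → ℚ)
    (j : Y.K) : Prop :=
  j ≠ 0 ∧ ∀ (E : Y.PrimeDiv) (F : X.PrimeDiv), E.1 ∈ O → E.1.map π = F.1 →
    q * D' E = q * D F + ord j E

/-- on `O`, `φ` is a combination of the pull backs of elements of `u` -/
def Cb (ι : X.K →+* Y.K) (O : Y.X.Opens) (u : Set X.K) (φ : Y.K) : Prop :=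
  ∃ (k : ℕ) (ψ : Fin k → X.K) (c : Fin k → Y.K), (∀ l, ψ l ∈ u) ∧
    (∀ l, ∀ y ∈ O, RegAt (c l) y) ∧ φ = ∑ l, ι (ψ l) * c l

/-- `z` attracts -/
def Att (f : X.X ⟶ Z.X) (z : Pt Z.X) (D : X.PrimeDiv → ℤ) : Prop :=
  ∀ (U : Z.X.Opens) (v : Pt Z.X), z ∈ U → ∃ σ τ ι j, Bc f τ f σ ι ∧ v.map τ ∈ U ∧
    Lin σ (fun E => D E) (fun E => D E) j

/-- nef on the fibre over `t` -/
def NefAt (f : X.X ⟶ Z.X) (D : X.PrimeDiv → ℚ) (t : Pt Z.X) : Prop :=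
  ∀ C : Curve X, (∀ z : Pt C.C, (z.map C.ι).map f = t) → ∀ m e, C.IsDeg D m e → 0 ≤ e

/-- a section of `-N (K + B)` near the fibre over `w` which is klt along `E` -/
def Kl (g : Y.X ⟶ W.X) (ω : DForm ℂ Y.K d) (B : Y.QDiv) (N : ℕ) (w : Pt W.X) (M : Model Y)
    (E : M.Y.PrimeDiv) : Prop :=
  ∃ (U : W.X.Opens) (ψ : Y.K), w ∈ U ∧ ψ ≠ 0 ∧
    (∀ F : Y.PrimeDiv, F.1 ∈ g ⁻¹ᵁ U → N * logCan ω B F ≤ ord ψ F) ∧
    0 < 1 + (formOrd ω M.pull E - (ord (M.pull ψ) E : ℝ) / N)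

end

/-- **APX**: approximation by functions of the base -/
def APX : Prop := ForB fun X Z Y W f e g _ ι => ∀ (V : W.X.Opens) (w : Pt W.X) (N : ℕ) (b : Y.K),
  IsAffine Z.X → IsClosed ({w} : Set _) → w ∈ V → (∀ y ∈ g ⁻¹ᵁ V, RegAt b y) →
    ∃ (a : X.K) (U : W.X.Opens), w ∈ U ∧ Rg a ∧
      Cb ι (g ⁻¹ᵁ U) {x | Pw f (w.map e) N x} (b - ι a)

/-- **SYS**: the system near the fibre -/
def SYS : Prop := ForB fun X Z Y W _ _ g _ ι => ∀ (V : W.X.Opens) (w : Pt W.X)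
  (D : X.PrimeDiv → ℤ) (φ : Y.K) (M : Model Y) (E : M.Y.PrimeDiv), IsAffine Z.X →
    IsClosed ({w} : Set _) → w ∈ V → φ ≠ 0 → Cb ι (g ⁻¹ᵁ V) {ψ | Sc D ψ} φ →
    (E.1.map M.π).map g = w → ∃ (u : Finset X.K) (U : W.X.Opens), w ∈ U ∧ U ≤ V ∧
      (∀ ψ ∈ u, Sc D ψ ∧ (ψ ≠ 0 → ord (M.pull φ) E ≤ ord (M.pull (ι ψ)) E)) ∧ Cb ι (g ⁻¹ᵁ U) u φ

/-- **QCD**: local equations descend -/
def QCD : Prop := ForP fun X Y π _ => ∀ (O : Y.X.Opens) (D' : Y.PrimeDiv → ℚ)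
  (D : X.PrimeDiv → ℚ) (j a : Y.K) (m : ℕ), ∀ y ∈ O, {F | D F ≠ 0}.Finite → Lq π O 1 D' D j →
    LocalEq D' m a y → ∃ b, LocalEq D m b (Pt.map π y)

/-- **LOC**: the system is `ε`-lc below -/
def LOC : Prop := ForP fun X Y π ι => ∀ (d q : ℕ) (ε : ℝ) (ω : DForm ℂ X.K d) (ω' : DForm ℂ Y.K d)
  (B : Y.QDiv) (D : X.PrimeDiv → ℤ) (φ : Y.K) (u : Set X.K) (O : Y.X.Opens), 1 ≤ d → 0 < q →
    dimension X.str = d → ω.Nonzero → ω'.Nonzero → {F | D F ≠ 0}.Finite → Pair (ε ≤ ·) ⊤ ω' B →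
    Rel π O q B D φ → Cb ι O u φ → ∀ y ∈ O, Gd ω q ε D u (Pt.map π y)

/-- **UPG**: systems pull back -/
def UPG : Prop := ForP fun X Y π ι => ∀ (d q : ℕ) (ε : ℝ) (ω : DForm ℂ X.K d) (ω' : DForm ℂ Y.K d)
  (D : X.PrimeDiv → ℤ) (D' : Y.PrimeDiv → ℤ) (j : Y.K) (u : Set X.K) (y : Pt Y.X), 1 ≤ d → 0 < q →
    0 ≤ ε → dimension X.str = d → ω.Nonzero → ω'.Nonzero →
    Lin π (fun E => D' E) (fun E => D E) j → Gd ω q ε D u (y.map π) →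
    Gd ω' q ε D' ((fun ψ => ι ψ / j) '' u) y

/-- **GLB**: the system is made global -/
def GLB : Prop := ForB fun X Z Y W f e g _ ι => ∀ (d q : ℕ) (ε : ℝ) (ω : DForm ℂ X.K d)
  (w : Pt W.X) (D : X.PrimeDiv → ℤ) (c : ℤ) (M : Model Y) (E : M.Y.PrimeDiv) (u : Finset X.K)
  (U : Z.X.Opens), 1 ≤ d → 0 < q → 0 ≤ ε → dimension X.str = d → ω.Nonzero → IsAffine Z.X →
    IsClosed ({w} : Set _) → (E.1.map M.π).map g = w → w.map e ∈ U → Att f (w.map e) D →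
    (∀ ψ ∈ u, Sc D ψ ∧ (ψ ≠ 0 → c ≤ ord (M.pull (ι ψ)) E)) → (∀ x ∈ f ⁻¹ᵁ U, Gd ω q ε D u x) →
    ∃ u' : Finset X.K, (∀ ψ ∈ u', Sc D ψ ∧ (ψ ≠ 0 → c ≤ ord (M.pull (ι ψ)) E)) ∧
      ∀ x, Gd ω q ε D u' x

/-- **BRT**: the general member -/
def BRT : Prop := ∀ (X : Var) (d q : ℕ) (ε : ℝ) (ω : DForm ℂ X.K d) (D : X.PrimeDiv → ℤ)
  (u : Finset X.K), 1 ≤ d → 2 ≤ q → 0 < ε → dimension X.str = d → ω.Nonzero →
    {F | D F ≠ 0}.Finite → (∀ ψ ∈ u, Sc D ψ) → (∀ x, Gd ω q ε D u x) →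
    ∃ g ∈ Submodule.span ℂ (u : Set X.K), g ≠ 0 ∧ ∃ B : X.QDiv,
      (∀ E, q * B E = D E + ord g E) ∧ Pair (ε / 2 ≤ ·) ⊤ ω B

/-- **NFD**: nef on a fibre descends -/
def NFD : Prop := ForB fun X _ Y W f e g π _ => ∀ (V : W.X.Opens) (q : ℕ) (D : X.PrimeDiv → ℚ)
  (D' : Y.PrimeDiv → ℚ) (j : Y.K), ∀ w ∈ V, 0 < q → Lq π (g ⁻¹ᵁ V) q D' D j → NefAt g D' w →
    NefAt f D (Pt.map e w)

/-- **NFU**: nef on a fibre ascends -/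
def NFU : Prop := ForB fun X _ Y W f e g π _ => ∀ (q : ℕ) (D : X.PrimeDiv → ℚ)
  (D' : Y.PrimeDiv → ℚ) (j : Y.K) (w : Pt W.X), 0 < q → Lq π ⊤ q D' D j → {F | D F ≠ 0}.Finite →
    (∀ x, ∃ m a, 0 < m ∧ LocalEq D m a x) → NefAt f D (w.map e) → NefAt g D' w

/-- **NFX**: the new boundary is anti-nef -/
def NFX : Prop := ForB fun X _ Y W f e g π _ => ∀ (d q : ℕ) (ω : DForm ℂ X.K d)
  (ω' : DForm ℂ Y.K d) (B : Y.QDiv) (B₂ : X.QDiv) (D : X.PrimeDiv → ℤ) (φ : Y.K) (g₀ : X.K)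
  (V : W.X.Opens), ∀ w ∈ V, 1 ≤ d → 0 < q → dimension X.str = d → ω.Nonzero → ω'.Nonzero →
    g₀ ≠ 0 → (∀ E, q * B₂ E = D E + ord g₀ E) → Rel π (g ⁻¹ᵁ V) q B D φ →
    (∀ x, ∃ m a, 0 < m ∧ LocalEq (logCan ω B₂) m a x) → Att f (Pt.map e w) D →
    NefOver g (-logCan ω' B) → NefOver f (-logCan ω B₂)

/-- **END**: the section at one divisor -/
def END : Prop := ForB fun X _ Y W f e g π ι => ∀ (d q n : ℕ) (ω : DForm ℂ X.K d)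
  (ω' : DForm ℂ Y.K d) (B : Y.QDiv) (B₂ : X.QDiv) (D : X.PrimeDiv → ℤ) (φ : Y.K) (g₀ : X.K)
  (V : W.X.Opens) (M : Model Y) (E : M.Y.PrimeDiv), ∀ w ∈ V, 1 ≤ d → 0 < q → 0 < n →
    dimension X.str = d → ω.Nonzero → ω'.Nonzero → g₀ ≠ 0 → (∀ E, q * B₂ E = D E + ord g₀ E) →
    Rel π (g ⁻¹ᵁ V) q B D φ → (E.1.map M.π).map g = w →
    ord (M.pull φ) E ≤ ord (M.pull (ι g₀)) E → HasKltComplement f ω B₂ n (Pt.map e w) →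
    Kl g ω' B (q * n) w M E

/-- **FIN**: finitely many sections generate -/
def FIN : Prop := ∀ (X : Var) (O : X.X.Opens) (c : X.PrimeDiv → ℤ), {F | c F ≠ 0}.Finite →
  ∃ u : Finset X.K, (∀ ψ ∈ u, ψ ≠ 0 ∧ ∀ F : X.PrimeDiv, F.1 ∈ O → c F ≤ ord ψ F) ∧
    ∀ φ : X.K, φ ≠ 0 → (∀ F : X.PrimeDiv, F.1 ∈ O → c F ≤ ord φ F) → ∀ x ∈ O,
      ∃ b : X.K → X.K, (∀ ψ, RegAt (b ψ) x) ∧ φ = ∑ ψ ∈ u, ψ * b ψ

/-- **PLW**: sections at all divisors give a complement -/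
def PLW : Prop := ∀ (Y W : Var) (g : Y.X ⟶ W.X) (d N : ℕ) (ω : DForm ℂ Y.K d) (B : Y.QDiv)
  (w : Pt W.X) (U : W.X.Opens), 1 ≤ d → 2 ≤ N → dimension Y.str = d → ω.Nonzero → Contraction g →
    (∀ E, 0 ≤ B E) → IsClosed ({w} : Set _) → w ∈ U →
    (∀ (M : Model Y) (E : M.Y.PrimeDiv), (E.1.map M.π).map g = w → Kl g ω B N w M E) →
    (∀ v ∈ U, IsClosed ({v} : Set (Pt W.X)) → v ≠ w → HasKltComplement g ω B N v) →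
    HasKltComplement g ω B N w

/-- **ZZ**: the ascent -/
def ZZ : Prop := ForB fun X Z Y W f e g π _ => ∀ (d q n : ℕ) (ε : ℝ) (ω : DForm ℂ X.K d)
  (ω' : DForm ℂ Y.K d) (B : Y.QDiv) (D : X.PrimeDiv → ℤ) (φ : Y.K) (V : W.X.Opens), ∀ w ∈ V,
    1 ≤ d → 2 ≤ q → 0 < n → 0 < ε → dimension X.str = d → ω.Nonzero → ω'.Nonzero → IsAffine Z.X →
    IsClosed ({w} : Set (Pt W.X)) → {F | D F ≠ 0}.Finite → Pair (ε ≤ ·) ⊤ ω' B →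
    NefOver g (-logCan ω' B) → Rel π (g ⁻¹ᵁ V) q B D φ → Att f (Pt.map e w) D →
    (∀ B₂ : X.QDiv, Pair (ε / 2 ≤ ·) ⊤ ω B₂ → (∀ E, ∃ i : ℤ, q * B₂ E = i) →
      NefOver f (-logCan ω B₂) → HasKltComplement f ω B₂ n (Pt.map e w)) →
    (∀ v ∈ V, IsClosed ({v} : Set (Pt W.X)) → v ≠ w → HasKltComplement g ω' B (q * n) v) →
    HasKltComplement g ω' B (q * n) w

open Sl Sl.Var in
/-- **UP**: the wrapper -/
def UP : Prop := ∀ (C : ∀ (d : ℕ) (X Z : Sl.Var), (X.X ⟶ Z.X) → X.Form d → Sl.Pt Z.X → Prop)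
  (C' : ∀ (d : ℕ) (X Z : Sl.Var), (X.X ⟶ Z.X) → X.Form d → X.QDiv → Sl.Pt Z.X → Prop),
  (On fun d X Z f ω B z => C d X Z f ω z ∧ Sl.NefOver f (-Sl.Var.logCan ω B)) → On C' →
    On fun d X Z f ω B z => Sl.NefOver f (-Sl.Var.logCan ω B) ∧ EtOver (C d) f z ∧
      Punctured (C' d X Z f ω B) z

/-- **SYSR** -/
def SYSR : Prop := APX → SYS

/-- **LOCR** -/
def LOCR : Prop := QCD → LOC

/-- **GLBR** -/
def GLBR : Prop := UPG → GLB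

/-- **NFXR** -/
def NFXR : Prop := NFD → NFU → NFX

/-- **PLWR** -/
def PLWR : Prop := FIN → PLW

/-- **ZZR** -/
def ZZR : Prop := SYS → LOC → GLB → BRT → NFX → END → PLW → ZZ

/-- **UPR** -/
def UPR : Prop := ZZ → UP

end Vale.Agent.P283R.Zz
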