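import Vale.Agent.P283R.Zz.St
import Vale.Agent.P283R.Sl.Zy

/-!
# P283R, block ZZ: klt complements ascend along étale maps (the last rows, second form)
-/

open Set CategoryTheory AlgebraicGeometry

noncomputable section

namespace Vale.Agent.P283R.Zz

open Vale.Agent.P289 (Pt St toRat val DForm dimension)
open Vale.Agent.P287D Vale.Agent.P283M Vale.Agent.P283M.Stm Vale.Agent.P283M.Stm.Var
open Vale.Agent.P283R.Et (Pe)
open Vale.Agent.P283R.Eb (Ep Bc Lin ForP ForB)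

/-- **PLW2**: sections at all divisors give a complement -/
def PLW2 : Prop := ∀ (Y W : Var) (g : Y.X ⟶ W.X) (d N : ℕ) (ω : DForm ℂ Y.K d) (B : Y.QDiv)
  (w : Pt W.X), 1 ≤ d → 2 ≤ N → dimension Y.str = d → ω.Nonzero → Contraction g →
    (∀ E, 0 ≤ B E) → IsClosed ({w} : Set _) →
    (∀ (M : Model Y) (E : M.Y.PrimeDiv), (E.1.map M.π).map g = w → Kl g ω B N w M E) →
    (∀ η : Pt W.X, η ⤳ w → η ≠ w → ∃ v : Pt W.X, η ⤳ v ∧ HasKltComplement g ω B N v) →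
    HasKltComplement g ω B N w

/-- **ZZ2**: the ascent -/
def ZZ2 : Prop := ForB fun X Z Y W f e g π _ => ∀ (d q n : ℕ) (ε : ℝ) (ω : DForm ℂ X.K d)
  (ω' : DForm ℂ Y.K d) (B : Y.QDiv) (D : X.PrimeDiv → ℤ) (φ : Y.K) (V : W.X.Opens), ∀ w ∈ V,
    1 ≤ d → 2 ≤ q → 0 < n → 0 < ε → dimension X.str = d → ω.Nonzero → ω'.Nonzero → IsAffine Z.X →
    IsClosed ({w} : Set (Pt W.X)) → {F | D F ≠ 0}.Finite → Pair (ε ≤ ·) ⊤ ω' B →
    NefOver g (-logCan ω' B) → Rel π (g ⁻¹ᵁ V) q B D φ → Att f (Pt.map e w) D →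
    (∀ B₂ : X.QDiv, Pair (ε / 2 ≤ ·) ⊤ ω B₂ → (∀ E, ∃ i : ℤ, q * B₂ E = i) →
      NefOver f (-logCan ω B₂) → HasKltComplement f ω B₂ n (Pt.map e w)) →
    (∀ η : Pt W.X, η ⤳ w → η ≠ w → ∃ v : Pt W.X, η ⤳ v ∧ HasKltComplement g ω' B (q * n) v) →
    HasKltComplement g ω' B (q * n) w

open Sl Sl.Var in
/-- **UP2**: the wrapper -/
def UP2 : Prop := ∀ (C : ∀ (d : ℕ) (X Z : Sl.Var), (X.X ⟶ Z.X) → X.Form d → Sl.Pt Z.X → Prop)
  (C' : ∀ (d : ℕ) (X Z : Sl.Var), (X.X ⟶ Z.X) → X.Form d → X.QDiv → Sl.Pt Z.X → Prop),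
  (On fun d X Z f ω B z => C d X Z f ω z ∧ Sl.NefOver f (-Sl.Var.logCan ω B)) → On C' →
    On fun d X Z f ω B z => Sl.NefOver f (-Sl.Var.logCan ω B) ∧ EtOver (C d) f z ∧
      Nearby (C' d X Z f ω B) z

/-- **PLWR2** -/
def PLWR2 : Prop := FIN → PLW2

end Vale.Agent.P283R.Zz
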