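import Vale.Agent.P283R.Zz.St

/-!
# P283R, block ZZ: the wrapper
-/

open Set CategoryTheory AlgebraicGeometry

noncomputable section

namespace Vale.Agent.P283R.Zz

section

open Vale.Agent.P289 (Pt St toRat val DForm dimension)
open Vale.Agent.P287D Vale.Agent.P283M Vale.Agent.P283M.Stm Vale.Agent.P283M.Stm.Var
open Vale.Agent.P297Z Vale.Agent.P283M.Br

theorem co_le {X : Var} {d : ℕ} {ω : DForm ℂ X.K d} {B : X.QDiv} {ε : ℝ} (ε0 : 0 ≤ ε)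
    (hd : dimension X.str = d) (h0 : ω.Nonzero) (h : Pair (ε ≤ ·) ⊤ ω B) (E : X.PrimeDiv) :
    B E ≤ 1 := by
  obtain ⟨j, -, fr⟩ := frm X _ (ffd X d hd) ω h0
  obtain ⟨Q, q, o⟩ := pl_of plc E
  obtain ⟨M, F, e, i⟩ := mod X Q E.1 q.dom
  have oq := (plc X M.Y M.pull (mdc X M).1 F).2 Q i
  obtain ⟨m, g, m0, l⟩ := h.2.1 E.1 trivial
  have k := h.2.2 M F trivial m g m0 (e ▸ l)
  have k2 := l.2 E specializes_rfl
  rw [logCan, o] at k2
  have k3 : (Q.ord g : ℝ) = m * (formOrd ω (RingEquiv.refl X.K) E + (B E : ℝ)) := by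
    exact_mod_cast k2
  have m1 : (m : ℝ) ≠ 0 := Nat.cast_ne_zero.2 m0.ne'
  rw [fr _ _ F Q i oq, oq, k3, fr _ _ E Q q o, mul_div_cancel_left₀ _ m1] at k
  exact_mod_cast (show (B E : ℝ) ≤ 1 by linarith)

theorem dim_dn {X Y : Var} {π : Y.X ⟶ X.X} {ι : X.K →+* Y.K} (h : Eb.Ep π ι) {d : ℕ}
    (hd : dimension Y.str = d) : dimension X.str = d := by
  obtain ⟨n, hn⟩ := Md.exists_ff X
  have k : dimension X.str = n := hn.trdeg
  rw [k, ← Eb.dim X Y π ι h n k, hd]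

end

open Sl Sl.Var in
/-- **UPR** -/
theorem upr85 : UPR := by
  intro zz C C' h h' d hd ε ε0 R hR
  classical
  obtain ⟨q, q2, hq⟩ : ∃ q : ℕ, 2 ≤ q ∧ ∀ r ∈ R, ∃ i : ℤ, q * r = i := by
    refine ⟨2 * ∏ r ∈ R, r.den, Nat.le_mul_of_pos_right 2 (Finset.prod_pos fun r _ => r.pos),
      fun r a => ?_⟩
    obtain ⟨k, e⟩ := Finset.dvd_prod_of_mem (fun r : ℚ => r.den) a
    refine ⟨2 * k * r.num, ?_⟩
    rw [e]
    push_cast
    rw [← Rat.mul_den_eq_num r]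
    ring
  have q0 : (0 : ℚ) < q := Nat.cast_pos.2 (by omega)
  obtain ⟨n, n1, H⟩ := h d hd (ε / 2) (half_pos ε0)
    ((Finset.range (q + 1)).image fun i : ℕ => (i : ℚ) / q) fun r a => by
      obtain ⟨i, b, rfl⟩ := Finset.mem_image.1 a
      exact ⟨by positivity, (div_le_one q0).2
        (Nat.cast_le.2 (Nat.lt_succ_iff.1 (Finset.mem_range.1 b)))⟩
  obtain ⟨n', n1', H'⟩ := h' d hd ε ε0 R hR
  have nn : 0 < n * n' := Nat.mul_pos n1 n1'
  refine ⟨q * (n * n'), Nat.mul_pos (by omega) nn, ?_⟩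
  rintro Y W g ω' B w dY h0' hp hB hg cw
    ⟨hN, ⟨X, Z, f, π, e, z, ω, he, hb, hf, aZ, h0, hC, cl, at'⟩, U, wU, pu⟩
  obtain ⟨ι, bc⟩ := bc_of hf he hb
  obtain rfl := he.2.2.1
  have dX := dim_dn bc.ep dY
  have it : ∀ E, ((⌊q * B E⌋ : ℤ) : ℚ) = q * B E := fun E => by
    by_cases z : B E = 0
    · simp [z]
    · obtain ⟨i, k⟩ := hq _ (hB E z)
      rw [show q * B E = i from k, Int.floor_intCast]
  obtain ⟨D, V, wV, j, j0, hj⟩ := cl (Finsupp.mapRange (fun r : ℚ => ⌊q * r⌋) (by simp) B)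
  have cz : IsClosed ({w.map e} : Set _) := by
    have := he.1
    have := LocallyOfFiniteType.jacobsonSpace Z.o.str
    exact e.closePoints_subset_preimage_closedPoints cw
  refine (has_iff g ω' B _ _).2 (zz _ _ _ _ _ _ _ _ _ bc d q (n * n') ε ω ω' B D j (U ⊓ V) w
    ⟨wU, wV⟩ hd q2 nn ε0 dX h0 h0' aZ cw (D.support.finite_toSet.subset fun F k => Finsupp.mem_support_iff.2 k) ((pair_iff _ _ ω' B).1 hp)
    ((nefOver_iff g _).1 hN) ⟨j0, fun E F a b => ?_⟩ (fun O v a => ?_) (fun B₂ p2 i2 n2 => ?_)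
    fun v a c k => ?_)
  · exact (it E).symm.trans ((congrArg Int.cast (hj E F a.2 b)).trans (Int.cast_add _ _))
  · obtain ⟨σ, τ, t1, t2, t3, t4, t5⟩ := at' O v a
    obtain ⟨j', j0', k⟩ := t5 D
    have : Etale σ := MorphismProperty.of_isPullback t3.1.flip t1
    obtain ⟨ι', k'⟩ := Et.exists_pe (W := X.o) (Z := X.o) σ
    exact ⟨σ, τ, ι', j', ⟨hf, t1, t2, t3.1, this, t3.2, k'⟩, t4, j0', fun E F b =>
      (congrArg Int.cast (k E F trivial b)).trans (Int.cast_add _ _)⟩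
  · refine (has_iff f ω B₂ _ _).1 ((H X Z f ω B₂ _ dX h0 ((pair_iff _ _ ω B₂).2 p2)
      (fun E _ => ?_) hf cz ⟨hC, (nefOver_iff f _).2 n2⟩).of_dvd (dvd_mul_right _ _))
    obtain ⟨i, k⟩ := i2 E
    have a0 : 0 ≤ B₂ E := p2.1 E trivial
    have a1 : B₂ E ≤ 1 := co_le (half_pos ε0).le dX h0 p2 E
    have i0 : (0 : ℚ) ≤ i := k ▸ mul_nonneg q0.le a0
    have i1 : (i : ℚ) ≤ q := k ▸ mul_le_of_le_one_right q0.le a1
    lift i to ℕ using by exact_mod_cast i0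
    refine Finset.mem_image.2 ⟨i, Finset.mem_range.2 (Nat.lt_succ_iff.2 (by exact_mod_cast i1)), ?_⟩
    rw [div_eq_iff q0.ne', mul_comm]
    exact_mod_cast k.symm
  · exact (has_iff g ω' B _ _).1 ((H' Y W g ω' B v dY h0' hp hB hg c (pu v a.1 c k)).of_dvd
      ((dvd_mul_left _ _).mul_left _))

end Vale.Agent.P283R.Zz
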