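import Vale.Agent.P283R.Zz.St

/-!
# P283R, block ZZ: the ascent
-/

open Set CategoryTheory AlgebraicGeometry

noncomputable section

namespace Vale.Agent.P283R.Zz

open Vale.Agent.P289 (Pt St toRat val DForm dimension)
open Vale.Agent.P287D Vale.Agent.P283M Vale.Agent.P283M.Stm Vale.Agent.P283M.Stm.Var
open Vale.Agent.P297Z Vale.Agent.P283M.Br

theorem ord_span {Y : Var} {K : Type} [Field K] [Algebra ℂ K] (p : K →ₐ[ℂ] Y.K) (E : Y.PrimeDiv)
    {u : Set K} {c : ℤ} (h : ∀ ψ ∈ u, ψ ≠ 0 → c ≤ ord (p ψ) E) {g : K}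
    (hg : g ∈ Submodule.span ℂ u) (g0 : g ≠ 0) : c ≤ ord (p g) E := by
  obtain ⟨Q, -, o⟩ := pl_of plc E
  have k : p g ∈ Q.sub (-c) := (Submodule.span_le.2 (fun z hz => by
    refine Q.mem_sub.2 (or_iff_not_imp_left.2 fun j0 => ?_)
    have := h z hz fun e => j0 (by simp [e])
    rw [o, ← Int.cast_le (R := ℝ)] at this
    change _ ≤ (Q.ord (p z) : ℝ) + _
    linarith) : Submodule.span ℂ u ≤ (Q.sub (-c)).comap p.toLinearMap) hg
  have := (Q.mem_sub.1 k).resolve_left ((map_ne_zero p).2 g0)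
  rw [o, ← Int.cast_le (R := ℝ)]
  linarith

/-- **ZZR** -/
theorem zzr85 : ZZR := by
  intro sys loc glb brt nfx en plw X Z Y W f e g π ι bc d q n ε ω ω' B D φ V w wV hd hq hn ε0 dX h0
    h0' aZ cw fD hp hN rel att hC hP
  have dY := Eb.dim X Y π ι bc.ep d dX
  have hg := Eb.con X Z Y W f e g π ι bc
  refine plw Y W g d (q * n) ω' B w V hd (hq.trans (Nat.le_mul_of_pos_right q hn)) dY h0' hg
    (fun E => hp.1 E trivial) cw wV (fun M E hE => ?_) hP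
  obtain ⟨_, ⟨V', hV', rfl⟩, wV', le⟩ := W.X.isBasis_affineOpens.exists_subset_of_mem_open wV V.isOpen
  obtain ⟨k, ψ, b, x1, x0, x2⟩ := Eb.sec_of Eb.div X Z Y W f e g π ι bc ⊤ V' (fun F => -D F) φ
    (isAffineOpen_top Z.X) hV' (fun _ _ => trivial) ⟨w, wV'⟩
    (fD.subset fun F h => neg_ne_zero.1 h) rel.1 fun E F hE hπ => by
      have k1 := rel.2 E F (le hE) hπ
      have k2 := mul_nonneg (Nat.cast_nonneg (α := ℚ) q) (hp.1 E trivial)
      rw [k1] at k2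
      have : (0 : ℤ) ≤ D F + ord φ E := by exact_mod_cast k2
      omega
  obtain ⟨u, U, wU, UV, hu, cb⟩ := sys X Z Y W f e g π ι bc V' w D φ M E aZ cw wV' rel.1
    ⟨k, ψ, b, fun l z F => by have := x2 l z F trivial; omega, x0, x1⟩ hE
  have rU : Rel π (g ⁻¹ᵁ U) q B D φ := ⟨rel.1, fun E F h => rel.2 E F (le (UV h))⟩
  have := bc.et
  obtain ⟨u', hu', gd⟩ := glb X Z Y W f e g π ι bc d q ε ω w D _ M E u
    ⟨e '' U, e.isOpenMap _ U.isOpen⟩ hd (by omega) ε0.le dX h0 aZ cw hE ⟨w, wU, rfl⟩ att hu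
    fun x ⟨w', a, c⟩ => by
      obtain ⟨y, rfl, c3⟩ := Scheme.exists_preimage_of_isPullback bc.pb x w' c.symm
      exact loc X Y π ι bc.ep d q ε ω ω' B D φ u _ hd (by omega) dX h0 h0' fD hp rU cb y
        (show g y ∈ U from c3 ▸ a)
  obtain ⟨g₀, sp, g0, B₂, e2, p2⟩ := brt X d q ε ω D u' hd hq ε0 dX h0 fD (fun ψ a => (hu' ψ a).1) gd
  refine en X Z Y W f e g π ι bc d q n ω ω' B B₂ D φ g₀ V M E w wV hd (by omega) hn dX h0 h0' g0 e2
    rel hE ?_ (hC B₂ p2 (fun F => ⟨D F + ord g₀ F, by rw [e2]; push_cast; rfl⟩)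
      (nfx X Z Y W f e g π ι bc d q ω ω' B B₂ D φ g₀ V w wV hd (by omega) dX h0 h0' g0 e2 rel
        (fun x => p2.2.1 x trivial) att hN))
  exact ord_span (Y := M.Y) { (M.pull : Y.K →+* M.Y.K).comp ι with
    commutes' := fun c => (congrArg M.pull (bc.ep.pe.cst bc.ep.ov c)).trans ((mdc Y M).1 c) } E
    (fun ψ a => (hu' ψ a).2) sp g0

end Vale.Agent.P283R.Zz
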