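import Vale.Agent.P283R.Zz.St2
import Vale.Agent.P283R.Zz.Zzr85
import Vale.Agent.P283R.Zz.Upr85

/-!
# P283R, block ZZ: the ascent and the wrapper, second form
-/

open Set CategoryTheory AlgebraicGeometry

noncomputable section

namespace Vale.Agent.P283R.Zz

section

open Vale.Agent.P289 (Pt St toRat val DForm dimension)
open Vale.Agent.P287D Vale.Agent.P283M Vale.Agent.P283M.Stm Vale.Agent.P283M.Stm.Var
open Vale.Agent.P297Z Vale.Agent.P283M.Br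

/-- **ZZ2** -/
theorem zz2 (sys : SYS) (loc : LOC) (glb : GLB) (brt : BRT) (nfx : NFX) (en : END) (plw : PLW2) :
    ZZ2 := by
  intro X Z Y W f e g π ι bc d q n ε ω ω' B D φ V w wV hd hq hn ε0 dX h0
    h0' aZ cw fD hp hN rel att hC hP
  have dY := Eb.dim X Y π ι bc.ep d dX
  have hg := Eb.con X Z Y W f e g π ι bc
  refine plw Y W g d (q * n) ω' B w hd (hq.trans (Nat.le_mul_of_pos_right q hn)) dY h0' hg
    (fun E => hp.1 E trivial) cw (fun M E hE => ?_) hP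
  obtain ⟨_, ⟨V', hV', rfl⟩, wV', le⟩ := W.X.isBasis_affineOpens.exists_subset_of_mem_open wV V.isOpen
  obtain ⟨k, ψ, b, x1, x0, x2⟩ := Eb.sec_of Eb.div X Z Y W f e g π ι bc ⊤ V' (fun F => -D F) φ
    (isAffineOpen_top Z.X) hV' (fun _ _ => trivial) ⟨w, wV'⟩
    (fD.subset fun F h => neg_ne_zero.1 h) rel.1 fun E F hE hπ => by
      have k1 := rel.2 E F (le hE) hπ
      have k2 := mul_nonneg (Nat.cast_nonneg (α := ℚ) q) (hp.1 E trivial)
      rw [k1] at k2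
      have : (0 : ℤ) ≤ D F + ord φ E := by exact_mod_cast k2
      omega
  obtain ⟨u, U, wU, UV, hu, cb⟩ := sys X Z Y W f e g π ι bc V' w D φ M E aZ cw wV' rel.1
    ⟨k, ψ, b, fun l z F => by have := x2 l z F trivial; omega, x0, x1⟩ hE
  have rU : Rel π (g ⁻¹ᵁ U) q B D φ := ⟨rel.1, fun E F h => rel.2 E F (le (UV h))⟩
  have := bc.et
  obtain ⟨u', hu', gd⟩ := glb X Z Y W f e g π ι bc d q ε ω w D _ M E u
    ⟨e '' U, e.isOpenMap _ U.isOpen⟩ hd (by omega) ε0.le dX h0 aZ cw hE ⟨w, wU, rfl⟩ att hu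
    fun x ⟨w', a, c⟩ => by
      obtain ⟨y, rfl, c3⟩ := Scheme.exists_preimage_of_isPullback bc.pb x w' c.symm
      exact loc X Y π ι bc.ep d q ε ω ω' B D φ u _ hd (by omega) dX h0 h0' fD hp rU cb y
        (show g y ∈ U from c3 ▸ a)
  obtain ⟨g₀, sp, g0, B₂, e2, p2⟩ := brt X d q ε ω D u' hd hq ε0 dX h0 fD (fun ψ a => (hu' ψ a).1) gd
  refine en X Z Y W f e g π ι bc d q n ω ω' B B₂ D φ g₀ V M E w wV hd (by omega) hn dX h0 h0' g0 e2
    rel hE ?_ (hC B₂ p2 (fun F => ⟨D F + ord g₀ F, by rw [e2]; push_cast; rfl⟩)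
      (nfx X Z Y W f e g π ι bc d q ω ω' B B₂ D φ g₀ V w wV hd (by omega) dX h0 h0' g0 e2 rel
        (fun x => p2.2.1 x trivial) att hN))
  exact ord_span (Y := M.Y) { (M.pull : Y.K →+* M.Y.K).comp ι with
    commutes' := fun c => (congrArg M.pull (bc.ep.pe.cst bc.ep.ov c)).trans ((mdc Y M).1 c) } E
    (fun ψ a => (hu' ψ a).2) sp g0

end

open Sl Sl.Var in
/-- **UP2** -/
theorem up2 (zz : ZZ2) : UP2 := by
  intro C C' h h' d hd ε ε0 R hR
  classical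
  obtain ⟨q, q2, hq⟩ : ∃ q : ℕ, 2 ≤ q ∧ ∀ r ∈ R, ∃ i : ℤ, q * r = i := by
    refine ⟨2 * ∏ r ∈ R, r.den, Nat.le_mul_of_pos_right 2 (Finset.prod_pos fun r _ => r.pos),
      fun r a => ?_⟩
    obtain ⟨k, e⟩ := Finset.dvd_prod_of_mem (fun r : ℚ => r.den) a
    refine ⟨2 * k * r.num, ?_⟩
    rw [e]
    push_cast
    rw [← Rat.mul_den_eq_num r]
    ring
  have q0 : (0 : ℚ) < q := Nat.cast_pos.2 (by omega)
  obtain ⟨n, n1, H⟩ := h d hd (ε / 2) (half_pos ε0)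
    ((Finset.range (q + 1)).image fun i : ℕ => (i : ℚ) / q) fun r a => by
      obtain ⟨i, b, rfl⟩ := Finset.mem_image.1 a
      exact ⟨by positivity, (div_le_one q0).2
        (Nat.cast_le.2 (Nat.lt_succ_iff.1 (Finset.mem_range.1 b)))⟩
  obtain ⟨n', n1', H'⟩ := h' d hd ε ε0 R hR
  have nn : 0 < n * n' := Nat.mul_pos n1 n1'
  refine ⟨q * (n * n'), Nat.mul_pos (by omega) nn, ?_⟩
  rintro Y W g ω' B w dY h0' hp hB hg cw
    ⟨hN, ⟨X, Z, f, π, e, z, ω, he, hb, hf, aZ, h0, hC, cl, at'⟩, pu⟩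
  obtain ⟨ι, bc⟩ := bc_of hf he hb
  obtain rfl := he.2.2.1
  have dX := dim_dn bc.ep dY
  have it : ∀ E, ((⌊q * B E⌋ : ℤ) : ℚ) = q * B E := fun E => by
    by_cases z : B E = 0
    · simp [z]
    · obtain ⟨i, k⟩ := hq _ (hB E z)
      rw [show q * B E = i from k, Int.floor_intCast]
  obtain ⟨D, V, wV, j, j0, hj⟩ := cl (Finsupp.mapRange (fun r : ℚ => ⌊q * r⌋) (by simp) B)
  have cz : IsClosed ({w.map e} : Set _) := by
    have := he.1
    have := LocallyOfFiniteType.jacobsonSpace Z.o.str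
    exact e.closePoints_subset_preimage_closedPoints cw
  refine (has_iff g ω' B _ _).2 (zz _ _ _ _ _ _ _ _ _ bc d q (n * n') ε ω ω' B D j V w
    wV hd q2 nn ε0 dX h0 h0' aZ cw (D.support.finite_toSet.subset fun F k => Finsupp.mem_support_iff.2 k) ((pair_iff _ _ ω' B).1 hp)
    ((nefOver_iff g _).1 hN) ⟨j0, fun E F a b => ?_⟩ (fun O v a => ?_) (fun B₂ p2 i2 n2 => ?_)
    fun η a k => ?_)
  · exact (it E).symm.trans ((congrArg Int.cast (hj E F a b)).trans (Int.cast_add _ _))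
  · obtain ⟨σ, τ, t1, t2, t3, t4, t5⟩ := at' O v a
    obtain ⟨j', j0', k⟩ := t5 D
    have : Etale σ := MorphismProperty.of_isPullback t3.1.flip t1
    obtain ⟨ι', k'⟩ := Et.exists_pe (W := X.o) (Z := X.o) σ
    exact ⟨σ, τ, ι', j', ⟨hf, t1, t2, t3.1, this, t3.2, k'⟩, t4, j0', fun E F b =>
      (congrArg Int.cast (k E F trivial b)).trans (Int.cast_add _ _)⟩
  · refine (has_iff f ω B₂ _ _).1 ((H X Z f ω B₂ _ dX h0 ((pair_iff _ _ ω B₂).2 p2)
      (fun E _ => ?_) hf cz ⟨hC, (nefOver_iff f _).2 n2⟩).of_dvd (dvd_mul_right _ _))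
    obtain ⟨i, k⟩ := i2 E
    have a0 : 0 ≤ B₂ E := p2.1 E trivial
    have a1 : B₂ E ≤ 1 := co_le (half_pos ε0).le dX h0 p2 E
    have i0 : (0 : ℚ) ≤ i := k ▸ mul_nonneg q0.le a0
    have i1 : (i : ℚ) ≤ q := k ▸ mul_le_of_le_one_right q0.le a1
    lift i to ℕ using by exact_mod_cast i0
    refine Finset.mem_image.2 ⟨i, Finset.mem_range.2 (Nat.lt_succ_iff.2 (by exact_mod_cast i1)), ?_⟩
    rw [div_eq_iff q0.ne', mul_comm]
    exact_mod_cast k.symm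
  · obtain ⟨v, c, s, k⟩ := pu η a k
    exact ⟨v, s, (has_iff g ω' B _ _).1 ((H' Y W g ω' B v dY h0' hp hB hg c k).of_dvd
      ((dvd_mul_left _ _).mul_left _))⟩

end Vale.Agent.P283R.Zz
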