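import Vale.Agent.P283R.Zz.St

/-!
# P283R, block ZZ: systems pull back
-/

open Set CategoryTheory AlgebraicGeometry

noncomputable section

namespace Vale.Agent.P283R.Zz

open Vale.Agent.P289 (Pt St toRat val DForm dimension)
open Vale.Agent.P287D Vale.Agent.P283M Vale.Agent.P283M.Stm Vale.Agent.P283M.Stm.Var
open Vale.Agent.P283M.Br Vale.Agent.P283R.Br Vale.Agent.P297Z
open Vale.Agent.P283R.Et (Pe Rat exists_rat)
open Vale.Agent.P283R.Eb (Ep Bc Lin ForP ForB)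

/-- **UPG** -/
theorem upg50 : UPG := fun X Y π ι h d q ε ω ω' D D' j u y _ q0 ε0 hd h0 h0' l hG => by
  let _ := ι.toAlgebra
  have := h.tower
  have hK := ffd X _ hd
  have hK' := ffd Y _ (Eb.dim X Y π ι h d hd)
  obtain ⟨s, s0, fr⟩ := frm X _ hK ω h0
  obtain ⟨s', s0', fr'⟩ := frm Y _ hK' ω' h0'
  obtain ⟨J, hJ⟩ := exists_rat hK hK'
  have l0 := Eb.lin_of Eb.div h hK hK' s0 s0' fr fr' hJ (B := 0) (B' := 0) fun _ _ _ => rfl
  have l1 : Lin π (kd ω' q D') (kd ω q D) ((J * s' / ι s) ^ q * j) :=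
    ⟨mul_ne_zero (pow_ne_zero _ l0.1) l.1, fun E F e => by
      have a := l0.2 E F e
      have b := l.2 E F e
      simp only [logCan, Finsupp.coe_zero, Pi.zero_apply, add_zero] at a b
      rw [kd, kd, a, b, Eb.ord_mul' (pow_ne_zero _ l0.1) l.1, Eb.ord_pow']
      push_cast
      ring⟩
  obtain ⟨⟨m, a, m0, ha⟩, hG⟩ := hG
  have lq := l1.loc Eb.div h ha
  refine ⟨⟨m, _, m0, lq⟩, fun M E e m' a' m0' ha' => ?_⟩
  subst e
  obtain ⟨⟨Q, hq⟩, o⟩ := plc Y M.Y M.pull (mdc Y M).1 E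
  have dq := (mdc Y M).2 E Q hq
  obtain ⟨P, lp⟩ := Pb.down hK hK' Q
  obtain ⟨M₀, E₀, e₀, i⟩ := mod X P _ (h.dom lp dq)
  have o₀ := (plc X M₀.Y M₀.pull (mdc X M₀).1 E₀).2 P i
  obtain ⟨ψ, hψ, ψ0, k⟩ := hG M₀ E₀ e₀ m a m0 ha
  rw [fr _ _ E₀ P i o₀, o₀, o₀] at k
  have ψ1 := (map_ne_zero ι).2 ψ0
  have s1 := (map_ne_zero ι).2 s0
  have a1 := (map_ne_zero ι).2 ha.1
  refine ⟨_, ⟨ψ, hψ, rfl⟩, div_ne_zero ψ1 l.1, ?_⟩
  have e1 : (1 : ℝ) ≤ Q.ord (ι P.t) := by exact_mod_cast lp.e_pos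
  have c := hJ.dsc_up hK hK' one_pos one_ne_zero lp
  simp only [dsc, Pi.sub_apply, Pi.smul_apply, smul_eq_mul, dv_apply, map_one, one_mul, pow_one,
    Nat.cast_one, inv_one, Pl.ord_one, Int.cast_zero, sub_zero] at c
  have c' : 1 + (cn Y.K d Q - Q.ord J) = Q.ord (ι P.t) * (1 + cn X.K d P) := c
  have oo : ∀ x, Q.ord (ι x) = Q.ord (ι P.t) * P.ord x := lp.ord
  have v := loc_uniq har plc ha' lq dq
  have m1 : (m : ℝ) ≠ 0 := Nat.cast_ne_zero.2 m0.ne'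
  have q1 : (q : ℝ) ≠ 0 := Nat.cast_ne_zero.2 q0.ne'
  have v' : (Q.ord a' : ℝ) / m' = Q.ord (ι P.t) * (P.ord a / m) +
      (q * (Q.ord J + Q.ord s' - Q.ord (ι P.t) * P.ord s) + Q.ord j) := by
    rw [Pl.ord_mul _ a1 (pow_ne_zero _ l1.1), Pl.ord_pow, Pl.ord_mul _ (pow_ne_zero _ l0.1) l.1,
      Pl.ord_pow, Pl.ord_div _ (mul_ne_zero hJ.1 s0') s1, Pl.ord_mul _ hJ.1 s0', oo a, oo s] at v
    push_cast at v
    rw [div_eq_iff (Nat.cast_ne_zero.2 m0'.ne')]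
    field_simp
    linarith
  rw [fr' _ _ E Q hq (o Q hq), o Q hq, o Q hq, v', Pl.ord_div _ ψ1 l.1, oo ψ]
  push_cast
  have w : 1 + (cn Y.K d Q + Q.ord s' - (Q.ord (ι P.t) * ((P.ord a : ℝ) / m) +
      (q * (Q.ord J + Q.ord s' - Q.ord (ι P.t) * P.ord s) + Q.ord j) +
      (Q.ord (ι P.t) * P.ord ψ - Q.ord j)) / q) =
      Q.ord (ι P.t) * (1 + (cn X.K d P + P.ord s - (P.ord a / m + P.ord ψ) / q)) := by
    have : cn Y.K d Q = Q.ord (ι P.t) * (1 + cn X.K d P) - 1 + Q.ord J := by linarith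
    rw [this]
    field_simp
    ring
  rw [w]
  nlinarith

end Vale.Agent.P283R.Zz
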